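import Mathlib

/-! Functional calculus on normalised symmetric matrices, packaged as an oracle. -/

set_option autoImplicit false

namespace Crest.Agent.R050

open Matrix Finset
open scoped RealInnerProductSpace

abbrev Ed (d : ℕ) := EuclideanSpace ℝ (Fin d)
abbrev Par (d : ℕ) := Sym2 (Fin d) → ℝ

/-- diagonal operator in an orthonormal basis -/
noncomputable def dop {d : ℕ} {W : Type*} [NormedAddCommGroup W] [InnerProductSpace ℝ W]
    (u : OrthonormalBasis (Fin d) ℝ W) (w : Fin d → ℝ) (v : W) : W :=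
  ∑ b, (w b * ⟪u b, v⟫) • u b

noncomputable def symM {d : ℕ} (e : Par d) : Matrix (Fin d) (Fin d) ℝ :=
  (√(∑ i, ∑ j, e s(i, j) ^ 2))⁻¹ • Matrix.of fun i j => e s(i, j)

lemma symM_herm {d : ℕ} (e : Par d) : (symM e).IsHermitian := by
  ext i j
  simp [symM, Sym2.eq_swap]

lemma symM_neg {d : ℕ} (e : Par d) : symM (-e) = - symM e := by
  ext i j
  simp [symM]

lemma rho_pos {d : ℕ} {e : Par d} (he : e ≠ 0) : 0 < ∑ i, ∑ j, e s(i, j) ^ 2 := by
  by_contra h
  apply he
  have h0 : ∑ i, ∑ j, e s(i, j) ^ 2 = 0 := le_antisymm (not_lt.mp h) (by positivity)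
  rw [sum_eq_zero_iff_of_nonneg (fun i _ => by positivity)] at h0
  funext p
  induction p using Sym2.ind with
  | h i j =>
    have := h0 i (mem_univ _)
    rw [sum_eq_zero_iff_of_nonneg (fun i _ => by positivity)] at this
    simpa using this j (mem_univ _)

lemma continuousOn_symM {d : ℕ} : ContinuousOn (symM (d := d)) {0}ᶜ := by
  unfold symM
  have h0 : Continuous fun e : Par d => √(∑ i, ∑ j, e s(i, j) ^ 2) := by fun_prop
  refine ContinuousOn.smul (ContinuousOn.inv₀ h0.continuousOn ?_) ?_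
  · intro e he
    exact (Real.sqrt_pos.mpr (rho_pos he)).ne'
  · refine Continuous.continuousOn ?_
    refine continuous_pi fun i => continuous_pi fun j => ?_
    simpa using continuous_apply _

lemma sum_sq_symM {d : ℕ} {e : Par d} (he : e ≠ 0) : ∑ i, ∑ j, symM e i j ^ 2 = 1 := by
  have h := rho_pos he
  simp only [symM, Matrix.smul_apply, Matrix.of_apply, smul_eq_mul, mul_pow, ← mul_sum, inv_pow]
  rw [Real.sq_sqrt h.le, inv_mul_cancel₀ h.ne']

lemma sum_sq_eigenvalues {d : ℕ} {A : Matrix (Fin d) (Fin d) ℝ} (hA : A.IsHermitian) :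
    ∑ b, hA.eigenvalues b ^ 2 = ∑ i, ∑ j, A i j ^ 2 := by
  have h1 : (A * A).trace = ∑ i, ∑ j, A i j ^ 2 := by
    simp only [Matrix.trace, Matrix.diag, Matrix.mul_apply]
    refine sum_congr rfl fun i _ => sum_congr rfl fun j _ => ?_
    have : A j i = A i j := by simpa using hA.apply i j
    rw [this, sq]
  rw [← h1]
  conv_rhs => rw [hA.spectral_theorem, ← map_mul, Unitary.conjStarAlgAut_apply,
    Matrix.trace_mul_comm, ← mul_assoc]
  simp [Matrix.diagonal_mul_diagonal, sq]

lemma cfc_apply_vec {d : ℕ} {A : Matrix (Fin d) (Fin d) ℝ} (hA : A.IsHermitian) (f : ℝ → ℝ)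
    (v : Ed d) : Matrix.toEuclideanLin (cfc f A) v =
      dop hA.eigenvectorBasis (fun b => f (hA.eigenvalues b)) v := by
  rw [hA.cfc_eq, Matrix.IsHermitian.cfc, Unitary.conjStarAlgAut_apply]
  ext i
  simp only [dop, Matrix.toLpLin_apply, Matrix.mulVec, dotProduct, Matrix.mul_apply,
    Matrix.diagonal, WithLp.ofLp_sum, WithLp.ofLp_smul, Finset.sum_apply, Pi.smul_apply,
    smul_eq_mul, PiLp.inner_apply]
  simp only [Matrix.of_apply, mul_ite, mul_zero, sum_ite_eq', mem_univ, if_true, sum_mul, mul_sum]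
  rw [sum_comm]
  refine sum_congr rfl fun b _ => sum_congr rfl fun j _ => ?_
  simp [Matrix.star_apply]
  ring

open scoped Matrix.Norms.L2Operator in
lemma continuousOn_cfc_symM {d : ℕ} (f : ℝ → ℝ) (hf : Continuous f) :
    ContinuousOn (fun e : Par d => cfc f (symM e)) {0}ᶜ :=
  ContinuousOn.cfc_of_mem_nhdsSet (s := Set.univ) f Filter.univ_mem continuousOn_symM
    (fun e _ => symM_herm e) hf.continuousOn

noncomputable def Top {d : ℕ} (f : ℝ → ℝ) (e : Par d) (v : Ed d) : Ed d :=
  Matrix.toEuclideanLin (cfc f (symM e)) v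

lemma continuous_Top {d : ℕ} (f : ℝ → ℝ) (hf : Continuous f) :
    Continuous (fun p : ({0}ᶜ : Set (Par d)) × Ed d => Top f p.1.1 p.2) := by
  have h := continuousOn_iff_continuous_domRestrict.mp (continuousOn_cfc_symM (d := d) f hf)
  have h2 : Continuous fun p : Matrix (Fin d) (Fin d) ℝ × Ed d =>
      Matrix.toEuclideanLin p.1 p.2 := by
    simp only [Matrix.toLpLin_apply]
    refine (PiLp.continuous_toLp 2 _).comp ?_
    exact Continuous.matrix_mulVec continuous_fst ((PiLp.continuous_ofLp 2 _).comp continuous_snd)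
  exact h2.comp ((h.comp continuous_fst).prodMk continuous_snd)

lemma Top_spec {d : ℕ} {e : Par d} (he : e ≠ 0) :
    ∃ (u : OrthonormalBasis (Fin d) ℝ (Ed d)) (l : Fin d → ℝ), ∑ b, l b ^ 2 = 1 ∧
      ∀ f : ℝ → ℝ, Continuous f → Top f e = dop u (fun b => f (l b)) ∧
        Top f (-e) = dop u (fun b => f (- l b)) := by
  refine ⟨(symM_herm e).eigenvectorBasis, (symM_herm e).eigenvalues, ?_, fun f hf => ⟨?_, ?_⟩⟩
  · rw [sum_sq_eigenvalues, sum_sq_symM he]
  · funext v; exact cfc_apply_vec _ f v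
  · funext v
    unfold Top
    have h := cfc_comp_neg f (symM e) hf.continuousOn (symM_herm e)
    have h2 := cfc_apply_vec (symM_herm e) (fun x => f (-x)) v
    rw [h] at h2
    rw [symM_neg]
    exact h2

lemma finrank_Par (d : ℕ) : Module.finrank ℝ (Par d) = (d + 1).choose 2 := by
  simp [Sym2.card]

end Crest.Agent.R050
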