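import Mathlib
import Crest.Agent.Lib.BorsukUlam.Basic
import Crest.Agent.R050.Spec

/-! Continuous colourings of a Euclidean space without orthogonal monochromatic pairs. -/

set_option autoImplicit false

namespace Crest.Agent.R050

open Finset Metric
open scoped RealInnerProductSpace

structure Col (W : Type*) [NormedAddCommGroup W] [InnerProductSpace ℝ W] (ι : Type*) where
  φ : ι → W → ℝ
  cont : ∀ i, Continuous (φ i)
  nonneg : ∀ i x, 0 ≤ φ i x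
  smul : ∀ i (t : ℝ) x, φ i (t • x) = |t| * φ i x
  le_norm : ∀ i x, φ i x ≤ ‖x‖
  exists_eq : ∀ x, ∃ i, φ i x = ‖x‖
  orth : ∀ i x y, 0 < φ i x → 0 < φ i y → ⟪x, y⟫ ≠ 0

variable {W W' : Type*} [NormedAddCommGroup W] [InnerProductSpace ℝ W]
  [NormedAddCommGroup W'] [InnerProductSpace ℝ W'] {ι : Type*} {d : ℕ}

def Col.comap (C : Col W ι) (f : W' →ₗᵢ[ℝ] W) : Col W' ι where
  φ i x := C.φ i (f x)
  cont i := (C.cont i).comp f.continuous
  nonneg i x := C.nonneg i _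
  smul i t x := by rw [map_smul, C.smul]
  le_norm i x := by simpa using C.le_norm i (f x)
  exists_eq x := by simpa using C.exists_eq (f x)
  orth i x y hx hy := by simpa using C.orth i _ _ hx hy

lemma Col.exists_pos (C : Col W ι) {x : W} (hx : x ≠ 0) : ∃ i, 0 < C.φ i x := by
  obtain ⟨i, hi⟩ := C.exists_eq x
  exact ⟨i, by rw [hi]; exact norm_pos_iff.mpr hx⟩

lemma Col.zero (C : Col W ι) (i : ι) : C.φ i 0 = 0 := by
  simpa using C.smul i 0 0

lemma Col.eq_zero_of_orth (C : Col W ι) {i : ι} {x y : W} (hx : 0 < C.φ i x) (h : ⟪x, y⟫ = 0) :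
    C.φ i y = 0 := by
  by_contra h1
  exact C.orth i x y hx (lt_of_le_of_ne (C.nonneg i y) (Ne.symm h1)) h

noncomputable def Col.Gs (C : Col W ι) (A : W → W) (i : ι) : ℝ :=
  sSup ((fun v => C.φ i (A v)) '' closedBall 0 1)

lemma inner_dop (u : OrthonormalBasis (Fin d) ℝ W) (w : Fin d → ℝ) (v : W) (b : Fin d) :
    ⟪u b, dop u w v⟫ = w b * ⟪u b, v⟫ := by
  unfold dop
  exact u.orthonormal.inner_right_fintype _ b

lemma norm_dop_le (u : OrthonormalBasis (Fin d) ℝ W) {w : Fin d → ℝ} {r : ℝ} (hr : 0 ≤ r)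
    (hw : ∀ b, |w b| ≤ r) (v : W) : ‖dop u w v‖ ≤ r * ‖v‖ := by
  refine abs_le_of_sq_le_sq' ?_ (by positivity) |>.2
  rw [← u.sum_sq_inner_right, mul_pow, ← u.sum_sq_inner_right v, mul_sum]
  refine sum_le_sum fun b _ => ?_
  rw [inner_dop, mul_pow]
  have : w b ^ 2 ≤ r ^ 2 :=
    sq_le_sq' (by linarith [neg_abs_le (w b), hw b]) ((le_abs_self _).trans (hw b))
  exact mul_le_mul_of_nonneg_right this (sq_nonneg _)

lemma dop_smul (u : OrthonormalBasis (Fin d) ℝ W) (w : Fin d → ℝ) (t : ℝ) (v : W) :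
    dop u w (t • v) = t • dop u w v := by
  unfold dop
  simp only [inner_smul_right, smul_sum, smul_smul]
  refine sum_congr rfl fun b _ => ?_
  congr 1; ring

noncomputable def Col.Γ (C : Col W ι) (u : OrthonormalBasis (Fin d) ℝ W) (w : Fin d → ℝ) (i : ι) :
    ℝ := C.Gs (dop u w) i

namespace Col

variable (C : Col W ι) (u : OrthonormalBasis (Fin d) ℝ W)

lemma Γ_bdd (w : Fin d → ℝ) (i : ι) :
    BddAbove ((fun v => C.φ i (dop u w v)) '' closedBall 0 1) := by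
  refine ⟨‖w‖, ?_⟩
  rintro _ ⟨v, hv, rfl⟩
  have h1 := norm_dop_le u (norm_nonneg w) (fun b => norm_le_pi_norm w b) v
  have h2 : ‖v‖ ≤ 1 := by simpa using hv
  have := C.le_norm i (dop u w v)
  have h3 : ‖w‖ * ‖v‖ ≤ ‖w‖ := mul_le_of_le_one_right (norm_nonneg _) h2
  simp only; linarith

lemma le_Γ (w : Fin d → ℝ) (i : ι) {v : W} (hv : ‖v‖ ≤ 1) : C.φ i (dop u w v) ≤ C.Γ u w i :=
  le_csSup (C.Γ_bdd u w i) ⟨v, by simpa using hv, rfl⟩

lemma Γ_nonneg (w : Fin d → ℝ) (i : ι) : 0 ≤ C.Γ u w i :=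
  (C.nonneg _ _).trans (C.le_Γ u w i (v := 0) (by simp))

lemma Γ_le_of {w : Fin d → ℝ} {i : ι} {r : ℝ}
    (h : ∀ v, ‖v‖ ≤ 1 → C.φ i (dop u w v) ≤ r) : C.Γ u w i ≤ r := by
  refine csSup_le ⟨_, 0, by simp, rfl⟩ ?_
  rintro _ ⟨v, hv, rfl⟩
  exact h v (by simpa using hv)

lemma Γ_le {w : Fin d → ℝ} {r : ℝ} (hr : 0 ≤ r) (hw : ∀ b, |w b| ≤ r) (i : ι) :
    C.Γ u w i ≤ r := by
  refine C.Γ_le_of u fun v hv => (C.le_norm _ _).trans ((norm_dop_le u hr hw v).trans ?_)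
  exact mul_le_of_le_one_right hr hv

lemma Γ_zero {w : Fin d → ℝ} (hw : ∀ b, w b = 0) (i : ι) : C.Γ u w i = 0 :=
  le_antisymm (C.Γ_le u le_rfl (by simp [hw]) i) (C.Γ_nonneg u w i)

lemma Γ_elim {w : Fin d → ℝ} {i : ι} (h : 0 < C.Γ u w i) :
    ∃ z, 0 < C.φ i z ∧ ∀ b, w b = 0 → ⟪u b, z⟫ = 0 := by
  by_contra hcon
  refine absurd h (not_lt.mpr (C.Γ_le_of u fun v _ => ?_))
  by_contra h1
  exact hcon ⟨_, not_le.mp h1, fun b hb => by rw [inner_dop, hb, zero_mul]⟩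

lemma Γ_intro {w : Fin d → ℝ} {i : ι} {z : W} (h : 0 < C.φ i z)
    (hz : ∀ b, w b = 0 → ⟪u b, z⟫ = 0) : 0 < C.Γ u w i := by
  set v := dop u (fun b => (w b)⁻¹) z with hv
  have h1 : dop u w v = z := by
    conv_rhs => rw [← u.sum_repr' z]
    conv_lhs => unfold dop
    refine sum_congr rfl fun b _ => ?_
    rw [hv, inner_dop]
    by_cases hb : w b = 0
    · simp [hb, hz b hb]
    · rw [← mul_assoc, mul_inv_cancel₀ hb, one_mul]
  have h2 : ‖(1 + ‖v‖)⁻¹ • v‖ ≤ 1 := by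
    rw [norm_smul, Real.norm_eq_abs, abs_of_pos (by positivity)]
    rw [inv_mul_le_iff₀ (by positivity)]; linarith
  refine lt_of_lt_of_le ?_ (C.le_Γ u w i h2)
  rw [dop_smul, C.smul, h1]
  have : 0 < |(1 + ‖v‖)⁻¹| := abs_pos.mpr (by positivity)
  positivity

lemma Γ_intro_basis {w : Fin d → ℝ} {i : ι} {a : Fin d} (h : 0 < C.φ i (u a)) (ha : w a ≠ 0) :
    0 < C.Γ u w i := by
  refine C.Γ_intro u h fun b hb => ?_
  exact u.orthonormal.inner_eq_zero (by rintro rfl; exact ha hb)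

lemma Γ_single {w : Fin d → ℝ} {a : Fin d} (hw : ∀ b, b ≠ a → w b = 0) (i : ι) :
    C.Γ u w i = |w a| * C.φ i (u a) := by
  have h1 : ∀ v, dop u w v = (w a * ⟪u a, v⟫) • u a := by
    intro v
    unfold dop
    rw [sum_eq_single a (fun b _ hb => by simp [hw b hb]) (by simp)]
  apply le_antisymm
  · refine C.Γ_le_of u fun v hv => ?_
    rw [h1, C.smul, abs_mul]
    have h2 : |⟪u a, v⟫| ≤ 1 := by
      have := abs_real_inner_le_norm (u a) v
      rw [u.orthonormal.1 a] at this; linarith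
    have := C.nonneg i (u a)
    calc |w a| * |⟪u a, v⟫| * C.φ i (u a) ≤ |w a| * 1 * C.φ i (u a) := by gcongr
      _ = _ := by ring
  · have := C.le_Γ u w i (v := u a) (u.orthonormal.1 a).le
    rwa [h1, real_inner_self_eq_norm_sq, u.orthonormal.1 a, one_pow, mul_one, C.smul] at this

lemma Γ_disj {w w' : Fin d → ℝ} (hw : ∀ b, w b = 0 ∨ w' b = 0) {i : ι} (h : 0 < C.Γ u w i) :
    C.Γ u w' i = 0 := by
  by_contra h1
  obtain ⟨z, hz, hz'⟩ := C.Γ_elim u h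
  obtain ⟨y, hy, hy'⟩ := C.Γ_elim u (lt_of_le_of_ne (C.Γ_nonneg u w' i) (Ne.symm h1))
  refine C.orth i z y hz hy ?_
  rw [← u.sum_inner_mul_inner]
  refine sum_eq_zero fun b _ => ?_
  rcases hw b with hb | hb
  · rw [real_inner_comm, hz' b hb, zero_mul]
  · rw [hy' b hb, mul_zero]

lemma basis_ne_zero (a : Fin d) : u a ≠ 0 := by
  intro h; have := u.orthonormal.1 a; rw [h] at this; simp at this

end Col

/-- Borsuk–Ulam on the space of symmetric matrices. -/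
lemma oracle [DecidableEq ι] (S : Finset ι) (hS : S.card ≤ (d + 1).choose 2)
    (Q : Par d → ι → ℝ) (hQ : ∀ i, ContinuousOn (fun e => Q e i) {0}ᶜ) (p : ι → ℝ) {i₀ : ι}
    (hi₀ : i₀ ∈ S) (hp : p i₀ ≠ 0) :
    ∃ e, e ≠ 0 ∧ ∃ s : ℝ, ∀ i ∈ S, Q e i - Q (-e) i = s * p i := by
  have hQ' : ∀ i, ContinuousOn (fun e => Q (-e) i) {0}ᶜ := fun i =>
    (hQ i).comp continuous_neg.continuousOn (fun e he => by simpa using he)
  obtain ⟨e, he, h0⟩ := Lib.BorsukUlam.borsuk_ulam (E := Par d) (G := S.erase i₀ → ℝ)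
    (by
      rw [finrank_Par]
      have := card_erase_lt_of_mem hi₀
      simp only [Module.finrank_fintype_fun_eq_card, Fintype.card_coe]
      omega)
    (fun e j => (Q e j - Q (-e) j) - p j / p i₀ * (Q e i₀ - Q (-e) i₀))
    (by intro e; funext j; simp only [neg_neg, Pi.neg_apply]; ring)
    (continuousOn_pi.mpr fun j => ((hQ j).sub (hQ' j)).sub
      (continuousOn_const.mul ((hQ i₀).sub (hQ' i₀))))
  refine ⟨e, he, (Q e i₀ - Q (-e) i₀) / p i₀, fun i hi => ?_⟩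
  by_cases h : i = i₀
  · subst h; field_simp
  · have := congr_fun h0 ⟨i, mem_erase.mpr ⟨h, hi⟩⟩
    simp only [Pi.zero_apply] at this
    rw [sub_eq_zero] at this
    rw [this]; ring

noncomputable def Col.Ψ (C : Col (Ed d) ι) (f : ℝ → ℝ) (e : Par d) (i : ι) : ℝ :=
  C.Gs (Top f e) i

lemma Col.continuousOn_Ψ (C : Col (Ed d) ι) {f : ℝ → ℝ} (hf : Continuous f) (i : ι) :
    ContinuousOn (fun e => C.Ψ f e i) {0}ᶜ := by
  rw [continuousOn_iff_continuous_domRestrict]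
  exact (isCompact_closedBall (0 : Ed d) 1).continuous_sSup
    (f := fun (e : ({0}ᶜ : Set (Par d))) v => C.φ i (Top f e.1 v))
    ((C.cont i).comp (continuous_Top f hf))

lemma Col.Ψ_spec (C : Col (Ed d) ι) {e : Par d} (he : e ≠ 0) :
    ∃ (u : OrthonormalBasis (Fin d) ℝ (Ed d)) (l : Fin d → ℝ), ∑ b, l b ^ 2 = 1 ∧
      ∀ f : ℝ → ℝ, Continuous f → C.Ψ f e = C.Γ u (fun b => f (l b)) ∧
        C.Ψ f (-e) = C.Γ u (fun b => f (- l b)) := by
  obtain ⟨u, l, h1, h2⟩ := Top_spec he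
  refine ⟨u, l, h1, fun f hf => ⟨?_, ?_⟩⟩
  · funext i; unfold Col.Ψ Col.Γ; rw [(h2 f hf).1]
  · funext i; unfold Col.Ψ Col.Γ; rw [(h2 f hf).2]

end Crest.Agent.R050
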