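import Crest.Agent.R050.CombData

/-! The finite combinatorial lemma closing the equality case of row 50. -/

set_option autoImplicit false

namespace Crest.Agent.R050

theorem comb_aux (Face : Finset (Fin 10) → Prop)
    (hdown : ∀ S T, S ⊆ T → Face T → Face S)
    (hpair : ∀ S, S.card ≤ 2 → Face S)
    (hcover : ∀ A B C, Face A → Face B → Face C → A ∪ B ∪ C ≠ Finset.univ)
    (hdual : ∀ σ T, Face σ → σ.card = 4 → T ⊆ σᶜ → T.card = 3 → Face T ∨ Face (σᶜ \ T))
    (hn1 : ∀ σ T k, Face σ → σ.card = 4 → T ⊆ σᶜ → T.card = 3 → Face T → k ∈ T →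
      ∃ l ∈ σᶜ \ T, Face (insert l (T.erase k)))
    (hp3 : ∀ σ k, Face σ → σ.card = 4 → k ∈ σ → ∃ l ∉ σ, Face (insert l (σ.erase k)))
    (hR : ∀ part : Fin 10 → ℕ, (∀ n, Face (Finset.univ.filter (fun i => part i = n))) →
      ∃ S, Face S ∧ S.card = 4 ∧ Set.InjOn part S)
    (h1 : Face {0, 1, 2, 3}) (h2 : Face {1, 2, 3, 4}) : False :=
  Chk.cert (Chk.inp_holds hdown hpair hcover hdual hn1 hp3 hR h1 h2)

theorem comb (Face : Finset (Fin 10) → Prop)
    (hdown : ∀ S T, S ⊆ T → Face T → Face S)
    (hpair : ∀ S, S.card ≤ 2 → Face S)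
    (hcover : ∀ A B C, Face A → Face B → Face C → A ∪ B ∪ C ≠ Finset.univ)
    (hdual : ∀ σ T, Face σ → σ.card = 4 → T ⊆ σᶜ → T.card = 3 → Face T ∨ Face (σᶜ \ T))
    (hn1 : ∀ σ T k, Face σ → σ.card = 4 → T ⊆ σᶜ → T.card = 3 → Face T → k ∈ T →
      ∃ l ∈ σᶜ \ T, Face (insert l (T.erase k)))
    (hp3 : ∀ σ k, Face σ → σ.card = 4 → k ∈ σ → ∃ l ∉ σ, Face (insert l (σ.erase k)))
    (hR : ∀ part : Fin 10 → ℕ, (∀ n, Face (Finset.univ.filter (fun i => part i = n))) →
      ∃ S, Face S ∧ S.card = 4 ∧ Set.InjOn part S) : False := by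
  classical
  obtain ⟨σ, hσ, hσ4, -⟩ := hR (fun i => i.val) (by
    intro n
    apply hpair
    refine le_trans (Finset.card_le_one.2 ?_) (by norm_num)
    intro a ha b hb
    rw [Finset.mem_filter] at ha hb
    exact Fin.ext (ha.2.trans hb.2.symm))
  obtain ⟨k, hk⟩ : σ.Nonempty := Finset.card_pos.1 (by omega)
  obtain ⟨l, hl, hF⟩ := hp3 σ k hσ hσ4 hk
  have h3 : (σ.erase k).card = 3 := by rw [Finset.card_erase_of_mem hk, hσ4]
  obtain ⟨a, b, c, hab, hac, hbc, habc⟩ := Finset.card_eq_three.1 h3
  have ha : a ∈ σ.erase k := by rw [habc]; simp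
  have hb : b ∈ σ.erase k := by rw [habc]; simp
  have hc : c ∈ σ.erase k := by rw [habc]; simp
  rw [Finset.mem_erase] at ha hb hc
  have hka : k ≠ a := ha.1.symm
  have hkb : k ≠ b := hb.1.symm
  have hkc : k ≠ c := hc.1.symm
  have hkl : k ≠ l := fun h => hl (h ▸ hk)
  have hal : a ≠ l := fun h => hl (h ▸ ha.2)
  have hbl : b ≠ l := fun h => hl (h ▸ hb.2)
  have hcl : c ≠ l := fun h => hl (h ▸ hc.2)
  let g : Fin 5 → Fin 10 := ![k, a, b, c, l]
  have hg : Function.Injective g := by
    intro x y hxy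
    fin_cases x <;> fin_cases y <;>
      first
        | rfl
        | exact absurd hxy (by assumption)
        | exact absurd hxy.symm (by assumption)
  let f : Fin 5 → Fin 10 := Fin.castLE (by norm_num)
  have hf : Function.Injective f := Fin.castLE_injective _
  obtain ⟨e, he⟩ := Equiv.Perm.exists_extending_pair f g hf hg
  have e0 : e 0 = k := he 0
  have e1 : e 1 = a := he 1
  have e2 : e 2 = b := he 2
  have e3 : e 3 = c := he 3
  have e4 : e 4 = l := he 4
  let M : Finset (Fin 10) → Finset (Fin 10) := fun S => S.map e.toEmbedding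
  let N : Finset (Fin 10) → Finset (Fin 10) := fun S => S.map e.symm.toEmbedding
  have memM : ∀ S x, x ∈ M S ↔ e.symm x ∈ S := fun S x => Finset.mem_map_equiv
  have cardM : ∀ S, (M S).card = S.card := fun S => Finset.card_map _
  have MN : ∀ S, M (N S) = S := by
    intro S; ext x; simp [M, N]
  refine comb_aux (fun S => Face (M S)) ?_ ?_ ?_ ?_ ?_ ?_ ?_ ?_ ?_
  · intro S T hST hT
    exact hdown _ _ (Finset.map_subset_map.2 hST) hT
  · intro S hS
    exact hpair _ (by rw [cardM]; exact hS)
  · intro A B C hA hB hC hU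
    apply hcover _ _ _ hA hB hC
    ext x
    have : e.symm x ∈ A ∪ B ∪ C := by rw [hU]; exact Finset.mem_univ _
    simpa [memM] using this
  · intro s T hs hs4 hT hT3
    have := hdual (M s) (M T) hs (by rw [cardM, hs4]) (by
      intro x hx
      have := hT ((memM _ _).1 hx)
      simpa [memM] using this) (by rw [cardM, hT3])
    have heq : M (sᶜ \ T) = (M s)ᶜ \ M T := by ext x; simp [memM]
    simpa only [heq] using this
  · intro s T j hs hs4 hT hT3 hFT hj
    obtain ⟨m, hm, hFm⟩ := hn1 (M s) (M T) (e j) hs (by rw [cardM, hs4]) (by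
      intro x hx
      have := hT ((memM _ _).1 hx)
      simpa [memM] using this) (by rw [cardM, hT3]) hFT (by simpa [memM] using hj)
    refine ⟨e.symm m, by simpa [memM] using hm, ?_⟩
    have heq : M (insert (e.symm m) (T.erase j)) = insert m ((M T).erase (e j)) := by
      ext x; simp [memM, Equiv.symm_apply_eq]
    simpa only [heq] using hFm
  · intro s j hs hs4 hj
    obtain ⟨m, hm, hFm⟩ := hp3 (M s) (e j) hs (by rw [cardM, hs4]) (by simpa [memM] using hj)
    refine ⟨e.symm m, by simpa [memM] using hm, ?_⟩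
    have heq : M (insert (e.symm m) (s.erase j)) = insert m ((M s).erase (e j)) := by
      ext x; simp [memM, Equiv.symm_apply_eq]
    simpa only [heq] using hFm
  · intro part hpart
    obtain ⟨S, hS, hS4, hinj⟩ := hR (fun x => part (e.symm x)) (by
      intro n
      have heq : M (Finset.univ.filter (fun i => part i = n)) =
          Finset.univ.filter (fun x => part (e.symm x) = n) := by
        ext x; simp [memM]
      have := hpart n
      simpa only [heq] using this)
    refine ⟨N S, by simpa only [MN] using hS, by rw [← cardM, MN, hS4], ?_⟩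
    intro x hx y hy hxy
    have hx' : e x ∈ S := by simpa [N] using hx
    have hy' : e y ∈ S := by simpa [N] using hy
    exact e.injective (hinj hx' hy' (by simpa using hxy))
  · have heq : M {0, 1, 2, 3} = σ := by
      rw [← Finset.insert_erase hk, habc]
      simp [M, e0, e1, e2, e3]
    simpa only [heq] using hσ
  · have heq : M {1, 2, 3, 4} = insert l (σ.erase k) := by
      rw [habc]
      ext x
      simp only [M, Finset.map_insert, Finset.map_singleton, Equiv.coe_toEmbedding, e1, e2, e3, e4,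
        Finset.mem_insert, Finset.mem_singleton]
      tauto
    simpa only [heq] using hF

end Crest.Agent.R050
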