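import Mathlib

/-! A small verified unit-propagation checker, specialised to the finite lemma of row 50. -/

set_option autoImplicit false

namespace Crest.Agent.R050.Chk

/-- A clause: bitset of positive variables, bitset of negative variables. -/
def Holds (F : ℕ → Prop) (c : ℕ × ℕ) : Prop :=
  (∃ m, c.1.testBit m = true ∧ F m) ∨ (∃ m, c.2.testBit m = true ∧ ¬ F m)

theorem holds_taut (F : ℕ → Prop) : Holds F (1, 1) := by
  by_cases h : F 0
  · exact Or.inl ⟨0, by decide, h⟩
  · exact Or.inr ⟨0, by decide, h⟩

inductive Tr : Type
  | leaf : Tr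
  | node (p n : ℕ) (l r : Tr) : Tr

def Tr.get : Tr → ℕ → ℕ × ℕ
  | Tr.leaf, _ => (1, 1)
  | Tr.node p n l r, i =>
    bif Nat.beq i 0 then (p, n) else
      bif Nat.beq (i % 2) 1 then l.get (i / 2) else r.get (i / 2 - 1)

/-- Unit propagation: `Z` = variables known false, `O` = variables known true. -/
def rup (t : ℕ → ℕ × ℕ) : List ℕ → ℕ → ℕ → Bool
  | [], _, _ => false
  | h :: hs, Z, O =>
    match t (h / 1024) with
    | (p, n) =>
      let p' := p ^^^ (p &&& Z)
      let n' := n ^^^ (n &&& O)
      bif Nat.beq n' 0 then
        (bif Nat.beq p' 0 then true else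
          bif Nat.beq p' (2 ^ (h % 1024)) then rup t hs Z (O ||| p') else false)
      else
        (bif Nat.beq p' 0 then
          (bif Nat.beq n' (2 ^ (h % 1024)) then rup t hs (Z ||| n') O else false)
        else false)

theorem rup_sound {F : ℕ → Prop} {t : ℕ → ℕ × ℕ} (ht : ∀ i, Holds F (t i)) :
    ∀ (hs : List ℕ) (Z O : ℕ), (∀ m, Z.testBit m = true → ¬ F m) →
      (∀ m, O.testBit m = true → F m) → rup t hs Z O = true → False
  | [], _, _, _, _, h => by simp [rup] at h
  | h :: hs, Z, O, hZ, hO, hr => by
    have hh := ht (h / 1024)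
    unfold rup at hr
    rcases hget : t (h / 1024) with ⟨p, n⟩
    rw [hget] at hr hh
    simp only at hr
    have key : (∃ m, (p ^^^ (p &&& Z)).testBit m = true ∧ F m) ∨
        (∃ m, (n ^^^ (n &&& O)).testBit m = true ∧ ¬ F m) := by
      rcases hh with ⟨m, hm, hF⟩ | ⟨m, hm, hF⟩
      · refine Or.inl ⟨m, ?_, hF⟩
        have : Z.testBit m = false := by
          by_contra hc
          exact hZ m (by simpa using hc) hF
        simp only at hm
        simp [Nat.testBit_xor, Nat.testBit_and, hm, this]
      · refine Or.inr ⟨m, ?_, hF⟩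
        have : O.testBit m = false := by
          by_contra hc
          exact hF (hO m (by simpa using hc))
        simp only at hm
        simp [Nat.testBit_xor, Nat.testBit_and, hm, this]
    generalize p ^^^ (p &&& Z) = p' at hr key
    generalize n ^^^ (n &&& O) = n' at hr key
    by_cases hn : n' = 0
    · subst hn
      by_cases hp : p' = 0
      · subst hp
        simp at key
      · have hp' : Nat.beq p' 0 = false := by
          cases hb : Nat.beq p' 0
          · rfl
          · exact absurd (Nat.eq_of_beq_eq_true hb) hp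
        rw [hp'] at hr
        simp only [Nat.beq_refl, cond_true, cond_false] at hr
        cases hb : Nat.beq p' (2 ^ (h % 1024))
        · rw [hb] at hr; simp at hr
        · rw [hb] at hr
          simp only [cond_true] at hr
          have he := Nat.eq_of_beq_eq_true hb
          generalize h % 1024 = k at he
          subst he
          refine rup_sound ht hs Z _ hZ ?_ hr
          intro m hm
          rw [Nat.testBit_or, Bool.or_eq_true] at hm
          rcases hm with hm | hm
          · exact hO m hm
          · rcases key with ⟨m', hm', hF⟩ | ⟨m', hm', _⟩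
            · rw [Nat.testBit_two_pow] at hm hm'
              simp only [decide_eq_true_eq] at hm hm'
              rw [← hm, hm']; exact hF
            · simp at hm'
    · have hn' : Nat.beq n' 0 = false := by
        cases hb : Nat.beq n' 0
        · rfl
        · exact absurd (Nat.eq_of_beq_eq_true hb) hn
      rw [hn'] at hr
      simp only [cond_false] at hr
      cases hb0 : Nat.beq p' 0
      · rw [hb0] at hr; simp at hr
      · rw [hb0] at hr
        simp only [cond_true] at hr
        have hp := Nat.eq_of_beq_eq_true hb0
        subst hp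
        cases hb : Nat.beq n' (2 ^ (h % 1024))
        · rw [hb] at hr; simp at hr
        · rw [hb] at hr
          simp only [cond_true] at hr
          have he := Nat.eq_of_beq_eq_true hb
          generalize h % 1024 = k at he
          subst he
          refine rup_sound ht hs _ O ?_ hO hr
          intro m hm
          rw [Nat.testBit_or, Bool.or_eq_true] at hm
          rcases hm with hm | hm
          · exact hZ m hm
          · rcases key with ⟨m', hm', _⟩ | ⟨m', hm', hF⟩
            · simp at hm'
            · rw [Nat.testBit_two_pow] at hm hm'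
              simp only [decide_eq_true_eq] at hm hm'
              rw [← hm, hm']; exact hF

theorem rup_holds {F : ℕ → Prop} {t : ℕ → ℕ × ℕ} (ht : ∀ i, Holds F (t i)) (hs : List ℕ) (p n : ℕ)
    (h : rup t hs p n = true) : Holds F (p, n) := by
  by_contra hc
  unfold Holds at hc
  push Not at hc
  exact rup_sound ht hs p n hc.1 hc.2 h

def bits : List ℕ → ℕ
  | [] => 0
  | m :: l => 2 ^ m ||| bits l

theorem testBit_bits {m : ℕ} : ∀ {l : List ℕ}, m ∈ l → (bits l).testBit m = true
  | [], h => by simp at h
  | a :: l, h => by
    unfold bits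
    rw [Nat.testBit_or, Bool.or_eq_true]
    rcases List.mem_cons.1 h with h | h
    · left; rw [h]; simp [Nat.testBit_two_pow]
    · right; exact testBit_bits h

/-- Clauses with index below `i`; a tautology elsewhere. -/
def below (t : Tr) (i h : ℕ) : ℕ × ℕ := bif Nat.blt h i then t.get h else (1, 1)

/-- Check that the clauses `i, i+1, …` of the table follow from earlier ones. -/
def run (t : Tr) : List (ℕ × List ℕ) → Bool
  | [] => true
  | (i, hs) :: ss => bif rup (below t i) hs (t.get i).1 (t.get i).2 then run t ss else false

theorem run_sound {F : ℕ → Prop} (t : Tr) : ∀ (ss : List (ℕ × List ℕ)) (i : ℕ),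
    ss.map Prod.fst = List.range' i ss.length → run t ss = true →
    (∀ j < i, Holds F (t.get j)) → ∀ j < i + ss.length, Holds F (t.get j)
  | [], _, _, _, h => by simpa using h
  | (a, hs) :: ss, i, hi, hr, h => by
    simp only [List.map_cons, List.length_cons, List.range'_succ, List.cons.injEq] at hi
    obtain ⟨rfl, hi⟩ := hi
    unfold run at hr
    cases hb : rup (below t a) hs (t.get a).1 (t.get a).2
    · rw [hb] at hr; simp at hr
    · rw [hb] at hr
      simp only [cond_true] at hr
      have ha : Holds F (t.get a) := by
        refine rup_holds (t := below t a) ?_ hs _ _ hb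
        intro j
        unfold below
        cases hj : Nat.blt j a
        · exact holds_taut F
        · exact h j (by simpa [Nat.blt_eq] using hj)
      have := run_sound t ss (a + 1) hi hr (by
        intro j hj
        rcases Nat.lt_succ_iff_lt_or_eq.1 hj with hj | rfl
        · exact h j hj
        · exact ha)
      intro j hj
      exact this j (by simp only [List.length_cons] at hj; omega)

/-! ### The input clauses -/

def toF (m : ℕ) : Finset (Fin 10) := Finset.univ.filter fun i => m.testBit i.val = true

@[simp] theorem mem_toF {m : ℕ} {i : Fin 10} : i ∈ toF m ↔ m.testBit i.val = true := by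
  simp [toF]

def pc (m : ℕ) : ℕ :=
  (m.testBit 0).toNat + (m.testBit 1).toNat + (m.testBit 2).toNat + (m.testBit 3).toNat +
  (m.testBit 4).toNat + (m.testBit 5).toNat + (m.testBit 6).toNat + (m.testBit 7).toNat +
  (m.testBit 8).toNat + (m.testBit 9).toNat

theorem card_toF (m : ℕ) : (toF m).card = pc m := by
  have h : ∀ b : Bool, (if b = true then 1 else 0) = b.toNat := by decide
  unfold toF pc
  rw [Finset.card_filter]
  simp only [Fin.sum_univ_succ, h, Finset.univ_unique, Finset.sum_singleton]
  simp only [add_assoc]
  rfl

theorem tb1023 (i : Fin 10) : (1023 : ℕ).testBit i.val = true := by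
  revert i; decide

def elems (m : ℕ) : List ℕ := (List.range 10).filter fun i => m.testBit i

theorem mem_elems {m : ℕ} (i : Fin 10) (h : m.testBit i.val = true) : i.val ∈ elems m := by
  simp [elems, h]

inductive Inp : Type
  | down (S T : ℕ)
  | cov (A B C : ℕ)
  | dual (s T : ℕ)
  | n1 (s T k : ℕ)
  | p3 (s k : ℕ)
  | rb (a b c d : ℕ)
  | unit (second : Bool)

def big (x : ℕ) : ℕ := bif Nat.ble (pc x) 2 then 0 else 2 ^ x

def Inp.cl : Inp → ℕ × ℕ
  | Inp.down S T => bif Nat.beq (S &&& T) S then (2 ^ S, 2 ^ T) else (1, 1)
  | Inp.cov A B C =>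
    bif Nat.beq (A ||| B ||| C) 1023 then (0, big A ||| big B ||| big C) else (1, 1)
  | Inp.dual s T =>
    bif Nat.beq (pc s) 4 && Nat.beq (pc T) 3 && Nat.beq (T &&& s) 0 then
      (2 ^ T ||| 2 ^ (1023 ^^^ (s ||| T)), 2 ^ s) else (1, 1)
  | Inp.n1 s T k =>
    bif Nat.beq (pc s) 4 && Nat.beq (pc T) 3 && Nat.beq (T &&& s) 0 && Nat.ble k 9 && T.testBit k then
      (bits ((elems (1023 ^^^ (s ||| T))).map fun l => (T ^^^ 2 ^ k) ||| 2 ^ l), 2 ^ s ||| 2 ^ T)
    else (1, 1)
  | Inp.p3 s k =>
    bif Nat.beq (pc s) 4 && Nat.ble k 9 && s.testBit k then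
      (bits ((elems (1023 ^^^ s)).map fun l => (s ^^^ 2 ^ k) ||| 2 ^ l), 2 ^ s)
    else (1, 1)
  | Inp.rb a b c d =>
    bif Nat.beq (a ||| b ||| c ||| d) 1023 then
      (bits ((elems a).flatMap fun i => (elems b).flatMap fun j => (elems c).flatMap fun k =>
          (elems d).map fun l => 2 ^ i ||| 2 ^ j ||| 2 ^ k ||| 2 ^ l),
        big a ||| big b ||| big c ||| big d)
    else (1, 1)
  | Inp.unit second => (bif second then 2 ^ 30 else 2 ^ 15, 0)

/-- Check that the table entries with the listed indices are the listed input clauses. -/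
def load (t : Tr) : List (ℕ × Inp) → Bool
  | [] => true
  | (i, a) :: l =>
    bif Nat.beq (t.get i).1 a.cl.1 && Nat.beq (t.get i).2 a.cl.2 then load t l else false

theorem load_sound {F : ℕ → Prop} (hF : ∀ a : Inp, Holds F a.cl) (t : Tr) :
    ∀ (l : List (ℕ × Inp)) (i : ℕ), l.map Prod.fst = List.range' i l.length → load t l = true →
    (∀ j < i, Holds F (t.get j)) → ∀ j < i + l.length, Holds F (t.get j)
  | [], _, _, _, h => by simpa using h
  | (a, c) :: l, i, hi, hr, h => by
    simp only [List.map_cons, List.length_cons, List.range'_succ, List.cons.injEq] at hi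
    obtain ⟨rfl, hi⟩ := hi
    unfold load at hr
    cases hb : (Nat.beq (t.get a).1 c.cl.1 && Nat.beq (t.get a).2 c.cl.2)
    · rw [hb] at hr; simp at hr
    · rw [hb] at hr
      simp only [cond_true] at hr
      rw [Bool.and_eq_true] at hb
      have ha : Holds F (t.get a) := by
        have : t.get a = c.cl :=
          Prod.ext (Nat.eq_of_beq_eq_true hb.1) (Nat.eq_of_beq_eq_true hb.2)
        rw [this]; exact hF c
      have := load_sound hF t l (a + 1) hi hr (by
        intro j hj
        rcases Nat.lt_succ_iff_lt_or_eq.1 hj with hj | rfl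
        · exact h j hj
        · exact ha)
      intro j hj
      exact this j (by simp only [List.length_cons] at hj; omega)

theorem beq_true {a b : ℕ} : Nat.beq a b = true ↔ a = b :=
  ⟨Nat.eq_of_beq_eq_true, fun h => h ▸ Nat.beq_refl a⟩

theorem holds_cond {F : ℕ → Prop} {b : Bool} {c : ℕ × ℕ} (h : b = true → Holds F c) :
    Holds F (bif b then c else (1, 1)) := by
  cases b
  · exact holds_taut _
  · exact h rfl

section
variable {Face : Finset (Fin 10) → Prop}

theorem big_holds (hpair : ∀ S, S.card ≤ 2 → Face S) (x : ℕ) (h : ¬ Face (toF x)) :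
    (big x).testBit x = true := by
  unfold big
  cases hb : Nat.ble (pc x) 2
  · simp [Nat.testBit_two_pow]
  · exact absurd (hpair _ (by rw [card_toF]; exact Nat.le_of_ble_eq_true hb)) h

theorem inp_holds
    (hdown : ∀ S T, S ⊆ T → Face T → Face S)
    (hpair : ∀ S, S.card ≤ 2 → Face S)
    (hcover : ∀ A B C, Face A → Face B → Face C → A ∪ B ∪ C ≠ Finset.univ)
    (hdual : ∀ σ T, Face σ → σ.card = 4 → T ⊆ σᶜ → T.card = 3 → Face T ∨ Face (σᶜ \ T))
    (hn1 : ∀ σ T k, Face σ → σ.card = 4 → T ⊆ σᶜ → T.card = 3 → Face T → k ∈ T →
      ∃ l ∈ σᶜ \ T, Face (insert l (T.erase k)))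
    (hp3 : ∀ σ k, Face σ → σ.card = 4 → k ∈ σ → ∃ l ∉ σ, Face (insert l (σ.erase k)))
    (hR : ∀ part : Fin 10 → ℕ, (∀ n, Face (Finset.univ.filter (fun i => part i = n))) →
      ∃ S, Face S ∧ S.card = 4 ∧ Set.InjOn part S)
    (h1 : Face {0, 1, 2, 3}) (h2 : Face {1, 2, 3, 4}) (a : Inp) :
    Holds (fun m => Face (toF m)) a.cl := by
  have hsub : ∀ s T : ℕ, T &&& s = 0 → toF T ⊆ (toF s)ᶜ := by
    intro s T h i hi
    rw [Finset.mem_compl]
    intro hs
    have := congrArg (fun x => x.testBit i.val) h
    simp only [Nat.testBit_and, Nat.zero_testBit] at this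
    rw [mem_toF] at hi hs
    simp [hi, hs] at this
  have hins : ∀ (T : ℕ) (k l : Fin 10), T.testBit k.val = true →
      toF ((T ^^^ 2 ^ k.val) ||| 2 ^ l.val) = insert l ((toF T).erase k) := by
    intro T k l hk
    ext i
    simp only [mem_toF, Nat.testBit_or, Nat.testBit_xor, Nat.testBit_two_pow, Finset.mem_insert,
      Finset.mem_erase, Bool.or_eq_true, decide_eq_true_eq, Fin.val_inj]
    by_cases hik : i = k
    · subst hik; simp [hk, eq_comm]
    · have : ¬ (k = i) := fun h => hik h.symm
      have h2 : (i = l) ↔ (l = i) := eq_comm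
      rw [h2]
      simp only [this, hik, decide_false, Bool.xor_false, ne_eq, not_false_eq_true, true_and]
      exact or_comm
  cases a with
  | down S T =>
    simp only [Inp.cl]
    refine holds_cond fun hb => ?_
    · have he := Nat.eq_of_beq_eq_true hb
      by_cases hT : Face (toF T)
      · refine Or.inl ⟨S, by simp [Nat.testBit_two_pow], hdown _ _ ?_ hT⟩
        intro i hi
        rw [mem_toF] at hi ⊢
        rw [← he, Nat.testBit_and, Bool.and_eq_true] at hi
        exact hi.2
      · exact Or.inr ⟨T, by simp [Nat.testBit_two_pow], hT⟩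
  | cov A B C =>
    simp only [Inp.cl]
    refine holds_cond fun hb => ?_
    · have he := Nat.eq_of_beq_eq_true hb
      by_cases hA : Face (toF A)
      · by_cases hB : Face (toF B)
        · by_cases hC : Face (toF C)
          · exfalso
            apply hcover _ _ _ hA hB hC
            ext i
            have := tb1023 i
            rw [← he] at this
            simpa [Nat.testBit_or, or_assoc] using this
          · exact Or.inr ⟨C, by simp [Nat.testBit_or, big_holds hpair C hC], hC⟩
        · exact Or.inr ⟨B, by simp [Nat.testBit_or, big_holds hpair B hB], hB⟩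
      · exact Or.inr ⟨A, by simp [Nat.testBit_or, big_holds hpair A hA], hA⟩
  | dual s T =>
    simp only [Inp.cl]
    refine holds_cond fun hb => ?_
    · simp only [Bool.and_eq_true, beq_true] at hb
      obtain ⟨⟨h4, h3⟩, h0⟩ := hb
      by_cases hs : Face (toF s)
      · rcases hdual _ (toF T) hs (by rw [card_toF, h4]) (hsub _ _ h0) (by rw [card_toF, h3])
          with h | h
        · exact Or.inl ⟨T, by simp [Nat.testBit_or, Nat.testBit_two_pow], h⟩
        · refine Or.inl ⟨1023 ^^^ (s ||| T), by simp [Nat.testBit_or, Nat.testBit_two_pow], ?_⟩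
          have : toF (1023 ^^^ (s ||| T)) = (toF s)ᶜ \ toF T := by
            ext i
            simp [Nat.testBit_xor, Nat.testBit_or, tb1023]
          show Face (toF _)
          rw [this]; exact h
      · exact Or.inr ⟨s, by simp [Nat.testBit_two_pow], hs⟩
  | n1 s T k =>
    simp only [Inp.cl]
    refine holds_cond fun hb => ?_
    · simp only [Bool.and_eq_true, beq_true] at hb
      obtain ⟨⟨⟨⟨h4, h3⟩, h0⟩, hk⟩, hTk⟩ := hb
      have hk' : k < 10 := Nat.lt_succ_of_le (Nat.le_of_ble_eq_true hk)
      by_cases hs : Face (toF s)
      · by_cases hT : Face (toF T)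
        · obtain ⟨l, hl, hF⟩ := hn1 _ (toF T) ⟨k, hk'⟩ hs (by rw [card_toF, h4]) (hsub _ _ h0)
            (by rw [card_toF, h3]) hT (by simpa using hTk)
          refine Or.inl ⟨(T ^^^ 2 ^ k) ||| 2 ^ l.val, ?_, ?_⟩
          · apply testBit_bits
            refine List.mem_map.2 ⟨l.val, mem_elems l ?_, rfl⟩
            simp only [Finset.mem_sdiff, Finset.mem_compl, mem_toF] at hl
            simp [Nat.testBit_xor, Nat.testBit_or, tb1023, hl.1, hl.2]
          · show Face (toF _)
            rw [hins T ⟨k, hk'⟩ l hTk]; exact hF
        · exact Or.inr ⟨T, by simp [Nat.testBit_or, Nat.testBit_two_pow], hT⟩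
      · exact Or.inr ⟨s, by simp [Nat.testBit_or, Nat.testBit_two_pow], hs⟩
  | p3 s k =>
    simp only [Inp.cl]
    refine holds_cond fun hb => ?_
    · simp only [Bool.and_eq_true, beq_true] at hb
      obtain ⟨⟨h4, hk⟩, hsk⟩ := hb
      have hk' : k < 10 := Nat.lt_succ_of_le (Nat.le_of_ble_eq_true hk)
      by_cases hs : Face (toF s)
      · obtain ⟨l, hl, hF⟩ := hp3 _ ⟨k, hk'⟩ hs (by rw [card_toF, h4]) (by simpa using hsk)
        refine Or.inl ⟨(s ^^^ 2 ^ k) ||| 2 ^ l.val, ?_, ?_⟩
        · apply testBit_bits
          refine List.mem_map.2 ⟨l.val, mem_elems l ?_, rfl⟩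
          simp only [mem_toF] at hl
          simp [Nat.testBit_xor, tb1023, hl]
        · show Face (toF _)
          rw [hins s ⟨k, hk'⟩ l hsk]; exact hF
      · exact Or.inr ⟨s, by simp [Nat.testBit_two_pow], hs⟩
  | rb a b c d =>
    simp only [Inp.cl]
    refine holds_cond fun hb => ?_
    · have he := Nat.eq_of_beq_eq_true hb
      by_cases hA : Face (toF a)
      swap
      · exact Or.inr ⟨a, by simp [Nat.testBit_or, big_holds hpair a hA], hA⟩
      by_cases hB : Face (toF b)
      swap
      · exact Or.inr ⟨b, by simp [Nat.testBit_or, big_holds hpair b hB], hB⟩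
      by_cases hC : Face (toF c)
      swap
      · exact Or.inr ⟨c, by simp [Nat.testBit_or, big_holds hpair c hC], hC⟩
      by_cases hD : Face (toF d)
      swap
      · exact Or.inr ⟨d, by simp [Nat.testBit_or, big_holds hpair d hD], hD⟩
      let part : Fin 10 → ℕ := fun i =>
        if a.testBit i.val = true then 0 else if b.testBit i.val = true then 1 else
          if c.testBit i.val = true then 2 else 3
      have hp0 : ∀ i, part i = 0 → a.testBit i.val = true := by
        intro i hi; simp only [part] at hi; split_ifs at hi <;> first | assumption | omega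
      have hp1 : ∀ i, part i = 1 → b.testBit i.val = true := by
        intro i hi; simp only [part] at hi; split_ifs at hi <;> first | assumption | omega
      have hp2 : ∀ i, part i = 2 → c.testBit i.val = true := by
        intro i hi; simp only [part] at hi; split_ifs at hi <;> first | assumption | omega
      have hp3' : ∀ i, part i = 3 → d.testBit i.val = true := by
        intro i hi
        have := tb1023 i
        rw [← he] at this
        simp only [part] at hi
        split_ifs at hi with h1 h2 h3 <;> try omega
        simpa [Nat.testBit_or, h1, h2, h3] using this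
      have hlt : ∀ i, part i < 4 := by
        intro i; simp only [part]; split_ifs <;> omega
      obtain ⟨S, hS, hcard, hinj⟩ := hR part (by
        intro n
        by_cases hn : n < 4
        · interval_cases n
          · exact hdown _ _ (fun i hi => by
              rw [Finset.mem_filter] at hi; exact mem_toF.2 (hp0 i hi.2)) hA
          · exact hdown _ _ (fun i hi => by
              rw [Finset.mem_filter] at hi; exact mem_toF.2 (hp1 i hi.2)) hB
          · exact hdown _ _ (fun i hi => by
              rw [Finset.mem_filter] at hi; exact mem_toF.2 (hp2 i hi.2)) hC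
          · exact hdown _ _ (fun i hi => by
              rw [Finset.mem_filter] at hi; exact mem_toF.2 (hp3' i hi.2)) hD
        · apply hpair
          rw [Finset.filter_eq_empty_iff.2]
          · simp
          · intro i _ hi
            have := hlt i
            omega)
      have hsurj : ∀ n < 4, ∃ i ∈ S, part i = n := by
        have himg : S.image part = Finset.range 4 := by
          apply Finset.eq_of_subset_of_card_le
          · intro n hn
            obtain ⟨i, _, rfl⟩ := Finset.mem_image.1 hn
            exact Finset.mem_range.2 (hlt i)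
          · rw [Finset.card_image_of_injOn hinj, hcard, Finset.card_range]
        intro n hn
        have : n ∈ S.image part := by rw [himg]; exact Finset.mem_range.2 hn
        exact Finset.mem_image.1 this
      obtain ⟨i, hi, hi'⟩ := hsurj 0 (by norm_num)
      obtain ⟨j, hj, hj'⟩ := hsurj 1 (by norm_num)
      obtain ⟨k, hk, hk'⟩ := hsurj 2 (by norm_num)
      obtain ⟨l, hl, hl'⟩ := hsurj 3 (by norm_num)
      refine Or.inl ⟨2 ^ i.val ||| 2 ^ j.val ||| 2 ^ k.val ||| 2 ^ l.val, ?_, ?_⟩
      · apply testBit_bits
        refine List.mem_flatMap.2 ⟨i.val, mem_elems i (hp0 i hi'), ?_⟩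
        refine List.mem_flatMap.2 ⟨j.val, mem_elems j (hp1 j hj'), ?_⟩
        refine List.mem_flatMap.2 ⟨k.val, mem_elems k (hp2 k hk'), ?_⟩
        exact List.mem_map.2 ⟨l.val, mem_elems l (hp3' l hl'), rfl⟩
      · refine hdown _ _ ?_ hS
        intro x hx
        simp only [mem_toF, Nat.testBit_or, Nat.testBit_two_pow, Bool.or_eq_true,
          decide_eq_true_eq, Fin.val_inj] at hx
        rcases hx with ((rfl | rfl) | rfl) | rfl <;> assumption
  | unit second =>
    simp only [Inp.cl]
    cases second
    · refine Or.inl ⟨15, by decide, ?_⟩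
      have : toF 15 = {0, 1, 2, 3} := by decide
      show Face (toF 15)
      rw [this]; exact h1
    · refine Or.inl ⟨30, by decide, ?_⟩
      have : toF 30 = {1, 2, 3, 4} := by decide
      show Face (toF 30)
      rw [this]; exact h2

end

end Crest.Agent.R050.Chk
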