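import Mathlib
import Crest.Agent.R050.Col

/-! Consequences of Borsuk–Ulam for tight colourings. -/

set_option autoImplicit false

namespace Crest.Agent.R050

open Finset Metric
open scoped RealInnerProductSpace

variable {W : Type*} [NormedAddCommGroup W] [InnerProductSpace ℝ W] {ι : Type*} {d : ℕ}

namespace Col

def Face (C : Col W ι) (S : Finset ι) : Prop := ∃ x, x ≠ 0 ∧ ∀ i ∈ S, 0 < C.φ i x

def Uses (C : Col W ι) (S : Finset ι) : Prop := ∀ i x, 0 < C.φ i x → i ∈ S

lemma exists_ne_zero {l : Fin d → ℝ} (h : ∑ b, l b ^ 2 = 1) : ∃ b, l b ≠ 0 := by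
  by_contra h1
  push Not at h1
  simp [h1] at h

lemma pos_neg_disj (l : Fin d → ℝ) (b : Fin d) : max 0 (l b) = 0 ∨ max 0 (- l b) = 0 := by
  rcases le_total (l b) 0 with h | h
  · left; exact max_eq_left h
  · right; exact max_eq_left (by linarith)

/-- every sign pattern is realised by a pair of orthogonal subspaces -/
lemma split [DecidableEq ι] (C : Col (Ed d) ι) {S P N : Finset ι} (hU : C.Uses S)
    (hS : S.card ≤ (d + 1).choose 2) (hP : P ⊆ S) (hN : N ⊆ S) (hPN : Disjoint P N)
    (hne : P.Nonempty) :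
    ∃ (u : OrthonormalBasis (Fin d) ℝ (Ed d)) (l : Fin d → ℝ),
      ∀ k, (k ∈ P ↔ 0 < C.Γ u (fun b => max 0 (l b)) k) ∧
        (k ∈ N ↔ 0 < C.Γ u (fun b => max 0 (- l b)) k) := by
  obtain ⟨i₀, hi₀⟩ := hne
  have hf : Continuous fun s : ℝ => max 0 s := by fun_prop
  set p : ι → ℝ := fun k => if k ∈ P then 1 else if k ∈ N then -1 else 0 with hp
  obtain ⟨e, he, s, hs⟩ := oracle S hS (fun e => C.Ψ (fun s => max 0 s) e)
    (fun i => C.continuousOn_Ψ hf i) p (hP hi₀) (by simp [hp, hi₀])
  obtain ⟨u, l, hl, h2⟩ := C.Ψ_spec he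
  simp only [(h2 _ hf).1, (h2 _ hf).2] at hs
  -- main step, for `0 ≤ s`
  have main : ∀ (l : Fin d → ℝ) (s : ℝ), 0 ≤ s → ∑ b, l b ^ 2 = 1 →
      (∀ i ∈ S, C.Γ u (fun b => max 0 (l b)) i - C.Γ u (fun b => max 0 (- l b)) i = s * p i) →
      ∀ k, (k ∈ P ↔ 0 < C.Γ u (fun b => max 0 (l b)) k) ∧
        (k ∈ N ↔ 0 < C.Γ u (fun b => max 0 (- l b)) k) := by
    intro l s hs0 hl hs
    have d1 : ∀ k, 0 < C.Γ u (fun b => max 0 (l b)) k → C.Γ u (fun b => max 0 (- l b)) k = 0 :=
      fun k hk => C.Γ_disj u (pos_neg_disj l) hk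
    have d2 : ∀ k, 0 < C.Γ u (fun b => max 0 (- l b)) k → C.Γ u (fun b => max 0 (l b)) k = 0 :=
      fun k hk => C.Γ_disj u (fun b => (pos_neg_disj l b).symm) hk
    have m1 : ∀ (w : Fin d → ℝ) k, 0 < C.Γ u w k → k ∈ S := by
      intro w k hk
      obtain ⟨z, hz, -⟩ := C.Γ_elim u hk
      exact hU k z hz
    have hspos : 0 < s := by
      obtain ⟨b, hb⟩ := exists_ne_zero hl
      obtain ⟨k, hk⟩ := C.exists_pos (basis_ne_zero u b)
      have hkS := hs k (hU k _ hk)
      rcases hs0.lt_or_eq with h | h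
      · exact h
      · exfalso
        rw [← h, zero_mul] at hkS
        rcases lt_or_gt_of_ne hb with hb' | hb'
        · have h1 : 0 < C.Γ u (fun b => max 0 (- l b)) k :=
            C.Γ_intro_basis u hk (by simp; linarith)
          rw [d2 k h1] at hkS; linarith
        · have h1 : 0 < C.Γ u (fun b => max 0 (l b)) k :=
            C.Γ_intro_basis u hk (by simp; linarith)
          rw [d1 k h1] at hkS; linarith
    intro k
    have n1 := C.Γ_nonneg u (fun b => max 0 (l b)) k
    have n2 := C.Γ_nonneg u (fun b => max 0 (- l b)) k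
    refine ⟨⟨fun hk => ?_, fun hk => ?_⟩, ⟨fun hk => ?_, fun hk => ?_⟩⟩
    · have := hs k (hP hk)
      simp only [hp, hk, if_true] at this; linarith
    · have := hs k (m1 _ k hk)
      rw [d1 k hk] at this
      by_contra h
      simp only [hp, h, if_false] at this
      split_ifs at this <;> linarith
    · have := hs k (hN hk)
      have h : k ∉ P := fun h => Finset.disjoint_left.mp hPN h hk
      simp only [hp, hk, h, if_true, if_false] at this; linarith
    · have := hs k (m1 _ k hk)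
      rw [d2 k hk] at this
      by_contra h
      simp only [hp, h, if_false] at this
      split_ifs at this <;> linarith
  rcases le_total 0 s with h | h
  · exact ⟨u, l, main l s h hl hs⟩
  · refine ⟨u, fun b => - l b, main (fun b => - l b) (-s) (by linarith) (by simpa using hl) ?_⟩
    intro i hi
    have := hs i hi
    simp only [neg_neg]; linarith

lemma face_of_single (C : Col W ι) (u : OrthonormalBasis (Fin d) ℝ W) {w : Fin d → ℝ} {a : Fin d}
    (hw : ∀ b, b ≠ a → w b = 0) {T : Finset ι} (hT : ∀ k ∈ T, 0 < C.Γ u w k) : C.Face T := by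
  refine ⟨u a, basis_ne_zero u a, fun k hk => ?_⟩
  have := hT k hk
  rw [C.Γ_single u hw] at this
  by_contra h
  have h0 : C.φ k (u a) = 0 := le_antisymm (not_lt.mp h) (C.nonneg _ _)
  rw [h0, mul_zero] at this
  exact lt_irrefl _ this

/-- a two-dimensional subspace needs at least three colours -/
lemma plane_three (C : Col W ι) {x y : W} (hx : ‖x‖ = 1) (hy : ‖y‖ = 1) (hxy : ⟪x, y⟫ = 0)
    (i j : ι) (h : ∀ (a b : ℝ) k, 0 < C.φ k (a • x + b • y) → k = i ∨ k = j) : False := by
  have hne : ∀ a b : ℝ, a ≠ 0 ∨ b ≠ 0 → a • x + b • y ≠ 0 := by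
    intro a b hab h0
    have h1 : ⟪x, a • x + b • y⟫ = a := by
      simp [inner_add_right, inner_smul_right, hxy, hx]
    have h2 : ⟪y, a • x + b • y⟫ = b := by
      simp [inner_add_right, inner_smul_right, real_inner_comm, hxy, hy]
    rw [h0] at h1 h2
    simp only [inner_zero_right] at h1 h2
    rcases hab with h | h
    · exact h h1.symm
    · exact h h2.symm
  let g : ℝ → ℝ := fun t => C.φ i ((1 - t) • x + t • y) - C.φ j ((1 - t) • x + t • y)
  have hg : Continuous g := by
    have := C.cont i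
    have := C.cont j
    fun_prop
  have hg0 : ∀ t, g t ≠ 0 := by
    intro t ht
    have h1 : 1 - t ≠ 0 ∨ t ≠ 0 := by
      by_cases h : t = 0
      · left; simp [h]
      · right; exact h
    have h2 : -t ≠ 0 ∨ 1 - t ≠ 0 := by simpa [or_comm] using h1
    obtain ⟨k, hk⟩ := C.exists_pos (hne _ _ h1)
    obtain ⟨k', hk'⟩ := C.exists_pos (hne _ _ h2)
    have e : C.φ i ((1 - t) • x + t • y) = C.φ j ((1 - t) • x + t • y) := sub_eq_zero.mp ht
    have hi : 0 < C.φ i ((1 - t) • x + t • y) := by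
      rcases h _ _ k hk with rfl | rfl
      · exact hk
      · rw [e]; exact hk
    have hk'' : 0 < C.φ k' ((1 - t) • x + t • y) := by
      rcases h _ _ k' hk' with rfl | rfl
      · exact hi
      · rw [← e]; exact hi
    refine C.orth k' _ _ hk' hk'' ?_
    simp only [inner_add_left, inner_add_right, inner_smul_left, inner_smul_right,
      real_inner_self_eq_norm_sq, hx, hy, hxy, real_inner_comm x y, conj_trivial]
    ring
  have g0 : g 0 = C.φ i x - C.φ j x := by simp [g]
  have g1 : g 1 = C.φ i y - C.φ j y := by simp [g]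
  have ivt : ∀ a b : ℝ, g a ≤ 0 → 0 ≤ g b → False := by
    intro a b ha hb
    obtain ⟨t, ht⟩ := intermediate_value_univ a b hg ⟨ha, hb⟩
    exact hg0 t ht
  rcases lt_or_gt_of_ne (hg0 0) with h0 | h0
  · have h1 : 0 < C.φ j x := by linarith [C.nonneg i x]
    have h2 := C.eq_zero_of_orth h1 hxy
    exact ivt 0 1 h0.le (by linarith [C.nonneg i y])
  · have h1 : 0 < C.φ i x := by linarith [C.nonneg j x]
    have h2 := C.eq_zero_of_orth h1 hxy
    exact ivt 1 0 (by linarith [C.nonneg j y]) h0.le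

lemma inner_comb (u : OrthonormalBasis (Fin d) ℝ W) {a a' b : Fin d} (s t : ℝ) (h1 : b ≠ a)
    (h2 : b ≠ a') : ⟪u b, s • u a + t • u a'⟫ = 0 := by
  simp [inner_add_right, inner_smul_right, u.orthonormal.inner_eq_zero h1,
    u.orthonormal.inner_eq_zero h2]

lemma face_pair [DecidableEq ι] (C : Col (Ed d) ι) {S : Finset ι} (hU : C.Uses S)
    (hS : S.card ≤ (d + 1).choose 2) {i j : ι} (hi : i ∈ S) (hj : j ∈ S) : C.Face {i, j} := by
  obtain ⟨u, l, h⟩ := C.split (P := {i, j}) (N := ∅) hU hS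
    (by intro k hk; rcases mem_insert.mp hk with rfl | hk
        · exact hi
        · rw [mem_singleton.mp hk]; exact hj) (by simp) (by simp) (by simp)
  obtain ⟨a, ha⟩ : ∃ a, max 0 (l a) ≠ 0 := by
    by_contra h1
    push Not at h1
    have := (h i).1.mp (by simp)
    rw [C.Γ_zero u h1] at this
    exact lt_irrefl _ this
  by_cases h2 : ∀ b, b ≠ a → max 0 (l b) = 0
  · exact C.face_of_single u h2 (fun k hk => (h k).1.mp hk)
  · exfalso
    push Not at h2
    obtain ⟨b, hb, hb'⟩ := h2
    refine C.plane_three (u.orthonormal.1 a) (u.orthonormal.1 b)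
      (u.orthonormal.inner_eq_zero hb.symm) i j fun s t k hk => ?_
    have := (h k).1.mpr (C.Γ_intro u hk fun c hc => inner_comb u s t
      (by rintro rfl; exact ha hc) (by rintro rfl; exact hb' hc))
    simpa using this

lemma face_dual [DecidableEq ι] (C : Col (Ed 3) ι) {S T : Finset ι} (hU : C.Uses S)
    (hS : S.card ≤ 6) (hT : T ⊆ S) (h1 : T.Nonempty) (h2 : (S \ T).Nonempty) :
    C.Face T ∨ C.Face (S \ T) := by
  obtain ⟨u, l, h⟩ := C.split (P := T) (N := S \ T) hU hS hT sdiff_subset disjoint_sdiff h1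
  obtain ⟨a, ha⟩ : ∃ a, max 0 (l a) ≠ 0 := by
    by_contra h3
    push Not at h3
    obtain ⟨i, hi⟩ := h1
    have := (h i).1.mp hi
    rw [C.Γ_zero u h3] at this
    exact lt_irrefl _ this
  obtain ⟨a', ha'⟩ : ∃ a, max 0 (- l a) ≠ 0 := by
    by_contra h3
    push Not at h3
    obtain ⟨i, hi⟩ := h2
    have := (h i).2.mp hi
    rw [C.Γ_zero u h3] at this
    exact lt_irrefl _ this
  by_cases h3 : ∀ b, b ≠ a → max 0 (l b) = 0
  · exact Or.inl (C.face_of_single u h3 (fun k hk => (h k).1.mp hk))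
  · right
    push Not at h3
    obtain ⟨b, hb, hb'⟩ := h3
    refine C.face_of_single u (a := a') (fun c hc => ?_) (fun k hk => (h k).2.mp hk)
    have e1 : a ≠ a' := by
      rintro rfl; rcases pos_neg_disj l a with h | h <;> contradiction
    have e2 : b ≠ a' := by
      rintro rfl; rcases pos_neg_disj l b with h | h <;> contradiction
    have : c = a ∨ c = b := by omega
    rcases this with rfl | rfl
    · exact (pos_neg_disj l c).resolve_left ha
    · exact (pos_neg_disj l c).resolve_left hb'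

/-- a two-dimensional subspace is never coloured by a face -/
lemma plane_not_face (C : Col W ι) {σ : Finset ι} (hσ : C.Face σ)
    (u : OrthonormalBasis (Fin d) ℝ W) {a b : Fin d} (hab : a ≠ b) :
    ∃ (s t : ℝ) (k : ι), k ∉ σ ∧ 0 < C.φ k (s • u a + t • u b) := by
  obtain ⟨x, -, hx⟩ := hσ
  have key : ∀ s t : ℝ, s • u a + t • u b ≠ 0 → ⟪x, s • u a + t • u b⟫ = 0 →
      ∃ (s t : ℝ) (k : ι), k ∉ σ ∧ 0 < C.φ k (s • u a + t • u b) := by
    intro s t h1 h2
    obtain ⟨k, hk⟩ := C.exists_pos h1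
    exact ⟨s, t, k, fun hkσ => C.orth k _ _ (hx k hkσ) hk h2, hk⟩
  by_cases h : ⟪x, u a⟫ = 0
  · exact key 1 0 (by simpa using basis_ne_zero u a) (by simpa using h)
  · refine key ⟪x, u b⟫ (-⟪x, u a⟫) (fun h0 => h ?_) ?_
    · have : ⟪u b, ⟪x, u b⟫ • u a + (-⟪x, u a⟫) • u b⟫ = -⟪x, u a⟫ := by
        simp [inner_add_right, inner_smul_right, u.orthonormal.inner_eq_zero hab.symm,
          u.orthonormal.1 b]
      rw [h0] at this
      simpa using this.symm
    · simp only [inner_add_right, inner_smul_right]; ring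

end Col

end Crest.Agent.R050
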