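import Mathlib
import Crest.Agent.R050.Facts

/-! In a tight colouring no ridge of a maximal face is free. -/

set_option autoImplicit false

namespace Crest.Agent.R050

open Finset Metric
open scoped RealInnerProductSpace

variable {W : Type*} [NormedAddCommGroup W] [InnerProductSpace ℝ W] {ι : Type*} {d : ℕ}

noncomputable def fN (s : ℝ) : ℝ := max 0 (min s (8 * s - 6))
noncomputable def fR (s : ℝ) : ℝ := max 0 s - fN s
noncomputable def fB (s : ℝ) : ℝ := max 0 (7 * s - 6)
noncomputable def fM (s : ℝ) : ℝ := max 0 (-s)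

lemma cont_fN : Continuous fN := by unfold fN; fun_prop
lemma cont_fR : Continuous fR := by unfold fR fN; fun_prop
lemma cont_fB : Continuous fB := by unfold fB; fun_prop
lemma cont_fM : Continuous fM := by unfold fM; fun_prop

lemma fN_small {s : ℝ} (h : s ≤ 3 / 4) : fN s = 0 :=
  max_eq_left ((min_le_right _ _).trans (by linarith))
lemma fN_big {s : ℝ} (h : 6 / 7 ≤ s) : fN s = s := by
  unfold fN; rw [min_eq_left (by linarith), max_eq_right (by linarith)]
lemma fR_small {s : ℝ} (h : s ≤ 3 / 4) : fR s = max 0 s := by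
  unfold fR; rw [fN_small h, sub_zero]
lemma fR_nonpos {s : ℝ} (h : s ≤ 0) : fR s = 0 := by
  rw [fR_small (by linarith), max_eq_left h]
lemma fR_big {s : ℝ} (h : 6 / 7 ≤ s) : fR s = 0 := by
  unfold fR; rw [fN_big h, max_eq_right (by linarith), sub_self]
lemma fR_mid {s : ℝ} (h0 : 0 < s) (h : s < 6 / 7) : fR s ≠ 0 := by
  unfold fR fN
  rw [max_eq_right h0.le, min_eq_right (by linarith)]
  have : max 0 (8 * s - 6) < s := max_lt h0 (by linarith)
  linarith
lemma fB_small {s : ℝ} (h : s ≤ 6 / 7) : fB s = 0 := max_eq_left (by linarith)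
lemma fB_one : fB 1 = 1 := by unfold fB; norm_num

lemma small_of_big {l : Fin d → ℝ} (hl : ∑ b, l b ^ 2 = 1) {a b : Fin d} (ha : 6 / 7 ≤ l a)
    (hb : b ≠ a) : |l b| ≤ 3 / 4 := by
  have h : l a ^ 2 + l b ^ 2 ≤ 1 := by
    rw [← hl, ← sum_pair (f := fun b => l b ^ 2) hb.symm]
    exact sum_le_sum_of_subset_of_nonneg (subset_univ _) fun _ _ _ => sq_nonneg _
  refine abs_le_of_sq_le_sq' ?_ (by norm_num) |> fun h => abs_le.mpr h
  nlinarith

lemma eq_one_of_single {l : Fin d → ℝ} (hl : ∑ b, l b ^ 2 = 1) {a : Fin d} (ha : 0 < l a)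
    (hb : ∀ b, b ≠ a → l b = 0) : l a = 1 := by
  rw [sum_eq_single a (fun b _ h => by simp [hb b h]) (by simp)] at hl
  nlinarith

lemma continuousOn_inf' {X : Type*} [TopologicalSpace X] {A : Set X} (τ : Finset ι)
    (hτ : τ.Nonempty) (g : X → ι → ℝ) (hg : ∀ i, ContinuousOn (fun x => g x i) A) :
    ContinuousOn (fun x => τ.inf' hτ (g x)) A := by
  induction hτ using Finset.Nonempty.cons_induction with
  | singleton a => simpa using hg a
  | cons a s ha hs ih =>
    simp only [inf'_cons hs]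
    exact (hg a).inf ih

namespace Col

variable [DecidableEq ι]

/-- the modified map, in terms of spectral data -/
noncomputable def QQ (σ τ : Finset ι) (hτ : τ.Nonempty) (i : ι) (N R B M : ι → ℝ) (k : ι) : ℝ :=
  N k + R k + τ.inf' hτ B *
    ((if k = i then 1 else 0) - (if k ∈ τ then 1 else 0) + if k ∈ σ then 0 else R i - M i)

noncomputable def QΓ (C : Col W ι) (u : OrthonormalBasis (Fin d) ℝ W) (σ τ : Finset ι)
    (hτ : τ.Nonempty) (i : ι) (l : Fin d → ℝ) : ι → ℝ :=
  QQ σ τ hτ i (C.Γ u fun b => fN (l b)) (C.Γ u fun b => fR (l b)) (C.Γ u fun b => fB (l b))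
    (C.Γ u fun b => fM (l b))

lemma caseA (C : Col W ι) (u : OrthonormalBasis (Fin d) ℝ W) {S σ : Finset ι} {i : ι}
    (hU : C.Uses S) (hσS : σ ⊆ S) (hσ : C.Face σ) (hi : i ∈ σ) (hτ : (σ.erase i).Nonempty)
    (hfree : ∀ x, (∀ k ∈ σ.erase i, 0 < C.φ k x) → ∀ k, 0 < C.φ k x → k ∈ σ)
    {l : Fin d → ℝ} (hl : ∑ b, l b ^ 2 = 1) {s : ℝ}
    (hs : ∀ k ∈ S, C.QΓ u σ _ hτ i l k - C.QΓ u σ _ hτ i (fun b => - l b) k =
      s * if k ∈ σ then 1 else 0)
    (hm : 0 < (σ.erase i).inf' hτ (C.Γ u fun b => fB (l b))) : False := by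
  set m := (σ.erase i).inf' hτ (C.Γ u fun b => fB (l b)) with hmdef
  have hm1 : ∀ k ∈ σ.erase i, 0 < C.Γ u (fun b => fB (l b)) k := fun k hk =>
    hm.trans_le (inf'_le _ hk)
  obtain ⟨a, ha⟩ : ∃ a, 6 / 7 < l a := by
    by_contra h
    push Not at h
    obtain ⟨k, hk⟩ := hτ
    have := hm1 k hk
    rw [C.Γ_zero u (fun b => fB_small (h b))] at this
    exact lt_irrefl _ this
  have hsm : ∀ b, b ≠ a → |l b| ≤ 3 / 4 := fun b hb => small_of_big hl ha.le hb
  have hsm1 : ∀ b, b ≠ a → l b ≤ 3 / 4 := fun b hb => (abs_le.mp (hsm b hb)).2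
  have hsm2 : ∀ b, - l b ≤ 3 / 4 := fun b => by
    by_cases hb : b = a
    · subst hb; linarith
    · linarith [(abs_le.mp (hsm b hb)).1]
  have eB : ∀ k, C.Γ u (fun b => fB (l b)) k = |fB (l a)| * C.φ k (u a) :=
    C.Γ_single u (fun b hb => fB_small (by linarith [hsm1 b hb]))
  have eN : ∀ k, C.Γ u (fun b => fN (l b)) k = l a * C.φ k (u a) := by
    intro k
    rw [C.Γ_single u (a := a) (fun b hb => fN_small (hsm1 b hb)), fN_big ha.le,
      abs_of_pos (by linarith)]
  have eB' : (C.Γ u fun b => fB (- l b)) = fun _ => 0 :=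
    funext <| C.Γ_zero u (fun b => fB_small (by linarith [hsm2 b]))
  have eN' : (C.Γ u fun b => fN (- l b)) = fun _ => 0 :=
    funext <| C.Γ_zero u (fun b => fN_small (hsm2 b))
  have eR' : (fun b => fR (- l b)) = fun b => fM (l b) := funext fun b => fR_small (hsm2 b)
  have hτx : ∀ k ∈ σ.erase i, 0 < C.φ k (u a) := by
    intro k hk
    have := hm1 k hk
    rw [eB] at this
    by_contra h
    have h0 : C.φ k (u a) = 0 := le_antisymm (not_lt.mp h) (C.nonneg _ _)
    rw [h0, mul_zero] at this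
    exact lt_irrefl _ this
  have hx := hfree (u a) hτx
  set wp : Fin d → ℝ := fun b => fR (l b) with hwp
  set wm : Fin d → ℝ := fun b => fM (l b) with hwm
  have wpa : wp a = 0 := fR_big ha.le
  have wma : wm a = 0 := max_eq_left (by linarith)
  have wdisj : ∀ b, wp b = 0 ∨ wm b = 0 := by
    intro b
    rcases le_total (l b) 0 with h | h
    · left; exact fR_nonpos h
    · right; exact max_eq_left (by linarith)
  have hs' : ∀ k ∈ S, l a * C.φ k (u a) + (C.Γ u wp k - C.Γ u wm k) + m *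
      ((if k = i then 1 else 0) - (if k ∈ σ.erase i then 1 else 0) +
        if k ∈ σ then 0 else C.Γ u wp i - C.Γ u wm i) = s * if k ∈ σ then 1 else 0 := by
    intro k hk
    have := hs k hk
    simp only [QΓ, QQ, eN, eB', eN', eR', inf'_const, zero_mul, add_zero, zero_add] at this
    rw [← this]; ring
  have hsR : ∀ k ∈ S \ σ, C.Γ u wp k - C.Γ u wm k + m * (C.Γ u wp i - C.Γ u wm i) = 0 := by
    intro k hk
    obtain ⟨hk1, hk2⟩ := mem_sdiff.mp hk
    have := hs' k hk1
    have h1 : k ≠ i := by rintro rfl; exact hk2 hi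
    have h2 : k ∉ σ.erase i := fun h => hk2 (mem_of_mem_erase h)
    have h3 : C.φ k (u a) = 0 := by
      by_contra h
      exact hk2 (hx k (lt_of_le_of_ne (C.nonneg _ _) (Ne.symm h)))
    simpa [h1, h2, hk2, h3] using this
  -- the forbidden pattern
  have forb : ∀ w w' : Fin d → ℝ, w a = 0 → w' a = 0 → (∀ b, w b = 0 ∨ w' b = 0) →
      0 < C.Γ u w i → (∀ k ∈ S \ σ, 0 < C.Γ u w' k) → False := by
    intro w w' h1 h2 h3 h4 h5
    obtain ⟨b, hb⟩ : ∃ b, w b ≠ 0 := by
      by_contra h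
      push Not at h
      rw [C.Γ_zero u h] at h4
      exact lt_irrefl _ h4
    obtain ⟨s, t, k, hk, hk'⟩ := C.plane_not_face hσ u (a := a) (b := b)
      (by rintro rfl; exact hb h1)
    obtain ⟨z, hz, hz'⟩ := C.Γ_elim u (h5 k (mem_sdiff.mpr ⟨hU k _ hk', hk⟩))
    refine C.orth k _ _ hk' hz ?_
    simp [inner_add_left, inner_smul_left, hz' a h2, hz' b ((h3 b).resolve_left hb)]
  rcases lt_trichotomy (C.Γ u wp i - C.Γ u wm i) 0 with h | h | h
  · refine forb wm wp wma wpa (fun b => (wdisj b).symm) (by linarith [C.Γ_nonneg u wp i]) ?_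
    intro k hk
    have h1 := hsR k hk
    have h2 := mul_neg_of_pos_of_neg hm h
    linarith [C.Γ_nonneg u wm k]
  · have hz : ∀ b, b ≠ a → l b = 0 := by
      intro b hb
      by_contra hlb
      obtain ⟨k, hk⟩ := C.exists_pos (basis_ne_zero u b)
      have hkτ : k ∉ σ.erase i := fun hk' =>
        C.orth k _ _ hk (hτx k hk') (u.orthonormal.inner_eq_zero hb)
      have hq : C.Γ u wp k - C.Γ u wm k = 0 := by
        by_cases hki : k = i
        · rw [hki]; exact h
        · have hkσ : k ∉ σ := fun h => hkτ (mem_erase.mpr ⟨hki, h⟩)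
          have := hsR k (mem_sdiff.mpr ⟨hU k _ hk, hkσ⟩)
          rw [h] at this; linarith
      rcases lt_or_gt_of_ne hlb with h1 | h1
      · have h2 : 0 < C.Γ u wm k := C.Γ_intro_basis u hk (by
          simp only [hwm, fM]; rw [max_eq_right (by linarith)]; linarith)
        have h3 := C.Γ_disj u (fun b => (wdisj b).symm) h2
        linarith
      · have h2 : 0 < C.Γ u wp k := C.Γ_intro_basis u hk (fR_mid h1 (by linarith [hsm1 b hb]))
        have h3 := C.Γ_disj u wdisj h2
        linarith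
    have hla : l a = 1 := eq_one_of_single hl (by linarith) hz
    have z1 : ∀ k, C.Γ u wp k = 0 := C.Γ_zero u fun b => by
      by_cases hb : b = a
      · rw [hb, wpa]
      · exact fR_nonpos (hz b hb).le
    have z2 : ∀ k, C.Γ u wm k = 0 := C.Γ_zero u fun b => by
      by_cases hb : b = a
      · rw [hb, wma]
      · simp [hwm, fM, hz b hb]
    obtain ⟨k, hk, hk'⟩ := exists_mem_eq_inf' hτ (C.Γ u fun b => fB (l b))
    rw [← hmdef, eB, hla, fB_one, abs_one, one_mul] at hk'
    have h1 := hs' k (hσS (mem_of_mem_erase hk))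
    have h2 := hs' i (hσS hi)
    have h3 : k ≠ i := (mem_erase.mp hk).1
    simp only [hla, z1, z2, h3, hk, mem_of_mem_erase hk, hi, if_true, if_false,
      notMem_erase] at h1 h2
    linarith [C.nonneg i (u a)]
  · refine forb wp wm wpa wma wdisj (by linarith [C.Γ_nonneg u wm i]) ?_
    intro k hk
    have h1 := hsR k hk
    have h2 := mul_pos hm h
    linarith [C.Γ_nonneg u wp k]

lemma caseB (C : Col W ι) (u : OrthonormalBasis (Fin d) ℝ W) {S σ : Finset ι} {i : ι}
    (hU : C.Uses S) (hσS : σ ⊆ S) (hσ : C.Face σ) (hτ : (σ.erase i).Nonempty)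
    {l : Fin d → ℝ} (hl : ∑ b, l b ^ 2 = 1) {s : ℝ} (hs0 : 0 ≤ s)
    (hs : ∀ k ∈ S, C.QΓ u σ _ hτ i l k - C.QΓ u σ _ hτ i (fun b => - l b) k =
      s * if k ∈ σ then 1 else 0)
    (hm : (σ.erase i).inf' hτ (C.Γ u fun b => fB (l b)) = 0)
    (hm' : (σ.erase i).inf' hτ (C.Γ u fun b => fB (- l b)) = 0) : False := by
  have hs' : ∀ k ∈ S, C.Γ u (fun b => fN (l b)) k + C.Γ u (fun b => fR (l b)) k -
      (C.Γ u (fun b => fN (- l b)) k + C.Γ u (fun b => fR (- l b)) k) =
      s * if k ∈ σ then 1 else 0 := by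
    intro k hk
    have := hs k hk
    simpa only [QΓ, QQ, hm, hm', zero_mul, add_zero] using this
  have posP : ∀ (l : Fin d → ℝ) b k, 0 < l b → 0 < C.φ k (u b) →
      0 < C.Γ u (fun b => fN (l b)) k + C.Γ u (fun b => fR (l b)) k := by
    intro l b k hb hk
    rcases lt_or_ge (l b) (6 / 7) with h | h
    · have := C.Γ_intro_basis u (w := fun b => fR (l b)) hk (fR_mid hb h)
      linarith [C.Γ_nonneg u (fun b => fN (l b)) k]
    · have := C.Γ_intro_basis u (w := fun b => fN (l b)) hk (by rw [fN_big h]; exact hb.ne')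
      linarith [C.Γ_nonneg u (fun b => fR (l b)) k]
  have hnn : ∀ b, 0 ≤ l b := by
    intro b
    by_contra hb
    push Not at hb
    obtain ⟨k, hk⟩ := C.exists_pos (basis_ne_zero u b)
    have h1 := posP (fun b => - l b) b k (by linarith) hk
    have hz : ∀ w : Fin d → ℝ, w b = 0 → C.Γ u w k = 0 := by
      intro w hw
      refine C.Γ_disj u (w := fun c => if c = b then 1 else 0) (fun c => ?_)
        (C.Γ_intro_basis u hk (by simp))
      by_cases hc : c = b <;> simp [hc, hw]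
    have h2 := hs' k (hU k _ hk)
    rw [hz _ (fN_small (by linarith)), hz (fun b => fR (l b)) (fR_nonpos hb.le)] at h2
    have : 0 ≤ s * if k ∈ σ then 1 else 0 := by split_ifs <;> simp [hs0]
    linarith
  have z1 : ∀ k, C.Γ u (fun b => fN (- l b)) k = 0 :=
    C.Γ_zero u fun b => fN_small (by linarith [hnn b])
  have z2 : ∀ k, C.Γ u (fun b => fR (- l b)) k = 0 :=
    C.Γ_zero u fun b => fR_nonpos (by linarith [hnn b])
  simp only [z1, z2, add_zero, sub_zero] at hs'
  have supp : ∀ k ∈ S, 0 < C.Γ u (fun b => fN (l b)) k + C.Γ u (fun b => fR (l b)) k → k ∈ σ := by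
    intro k hk h
    by_contra h1
    have := hs' k hk
    simp only [h1, if_false, mul_zero] at this
    linarith
  by_cases hbig : ∃ a, 6 / 7 ≤ l a
  · obtain ⟨a, ha⟩ := hbig
    have hsm1 : ∀ b, b ≠ a → l b ≤ 3 / 4 := fun b hb => (abs_le.mp (small_of_big hl ha hb)).2
    have eN : ∀ k, C.Γ u (fun b => fN (l b)) k = l a * C.φ k (u a) := by
      intro k
      rw [C.Γ_single u (a := a) (fun b hb => fN_small (hsm1 b hb)), fN_big ha,
        abs_of_pos (by linarith)]
    have eR : ∀ k, C.Γ u (fun b => fR (l b)) k ≤ 3 / 4 := by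
      refine C.Γ_le u (by norm_num) fun b => ?_
      by_cases hb : b = a
      · rw [hb, fR_big ha]; norm_num
      · rw [fR_small (hsm1 b hb), max_eq_right (hnn b), abs_of_nonneg (hnn b)]
        exact hsm1 b hb
    obtain ⟨k₀, hk₀⟩ := C.exists_eq (u a)
    rw [u.orthonormal.1 a] at hk₀
    have hk₀S : k₀ ∈ S := hU k₀ (u a) (by rw [hk₀]; norm_num)
    have hk₀σ : k₀ ∈ σ := supp k₀ hk₀S (posP l a k₀ (by linarith) (by rw [hk₀]; norm_num))
    have hsbig : 6 / 7 ≤ s := by
      have := hs' k₀ hk₀S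
      simp only [eN, hk₀, hk₀σ, if_true, mul_one] at this
      linarith [C.Γ_nonneg u (fun b => fR (l b)) k₀]
    have hall : ∀ k ∈ σ, 0 < C.φ k (u a) := by
      intro k hk
      have := hs' k (hσS hk)
      simp only [eN, hk, if_true, mul_one] at this
      by_contra h
      have h0 : C.φ k (u a) = 0 := le_antisymm (not_lt.mp h) (C.nonneg _ _)
      rw [h0] at this
      linarith [eR k]
    have hz : ∀ b, b ≠ a → l b = 0 := by
      intro b hb
      by_contra hlb
      obtain ⟨k, hk⟩ := C.exists_pos (basis_ne_zero u b)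
      have := supp k (hU k _ hk) (posP l b k (lt_of_le_of_ne (hnn b) (Ne.symm hlb)) hk)
      exact C.orth k _ _ hk (hall k this) (u.orthonormal.inner_eq_zero hb)
    have hla : l a = 1 := eq_one_of_single hl (by linarith) hz
    obtain ⟨k, hk, hk'⟩ := exists_mem_eq_inf' hτ (C.Γ u fun b => fB (l b))
    have := C.Γ_intro_basis u (w := fun b => fB (l b)) (hall k (mem_of_mem_erase hk))
      (by simp only [hla, fB_one]; norm_num)
    linarith
  · push Not at hbig
    obtain ⟨a, ha⟩ := exists_ne_zero hl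
    have ha' : 0 < l a := lt_of_le_of_ne (hnn a) (Ne.symm ha)
    obtain ⟨b, hb, hb'⟩ : ∃ b, b ≠ a ∧ l b ≠ 0 := by
      by_contra h
      push Not at h
      have := eq_one_of_single hl ha' h
      linarith [hbig a]
    have hb'' : 0 < l b := lt_of_le_of_ne (hnn b) (Ne.symm hb')
    obtain ⟨s, t, k, hk, hk'⟩ := C.plane_not_face hσ u hb.symm
    refine hk (supp k (hU k _ hk') ?_)
    have := C.Γ_intro u (w := fun b => fR (l b)) hk' fun c hc => inner_comb u s t
      (by rintro rfl; exact fR_mid ha' (hbig _) hc) (by rintro rfl; exact fR_mid hb'' (hbig _) hc)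
    linarith [C.Γ_nonneg u (fun b => fN (l b)) k]

theorem no_free (C : Col (Ed d) ι) {S σ : Finset ι} {i : ι} (hU : C.Uses S)
    (hS : S.card ≤ (d + 1).choose 2) (hσS : σ ⊆ S) (hσ : C.Face σ) (hi : i ∈ σ)
    (hτ : (σ.erase i).Nonempty) :
    ∃ j ∈ S \ σ, C.Face (insert j (σ.erase i)) := by
  by_contra hcon
  have hfree : ∀ x, (∀ k ∈ σ.erase i, 0 < C.φ k x) → ∀ k, 0 < C.φ k x → k ∈ σ := by
    intro x hx k hk
    by_contra h
    refine hcon ⟨k, mem_sdiff.mpr ⟨hU k x hk, h⟩, x, ?_, ?_⟩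
    · rintro rfl; rw [C.zero] at hk; exact lt_irrefl _ hk
    · intro j hj
      rcases mem_insert.mp hj with rfl | hj
      · exact hk
      · exact hx j hj
  obtain ⟨e, he, s, hs⟩ := oracle S hS
    (fun e => QQ σ _ hτ i (C.Ψ fN e) (C.Ψ fR e) (C.Ψ fB e) (C.Ψ fM e))
    (fun k => by
      unfold QQ
      refine ((C.continuousOn_Ψ cont_fN k).add (C.continuousOn_Ψ cont_fR k)).add
        ((continuousOn_inf' _ hτ _ (C.continuousOn_Ψ cont_fB)).mul (continuousOn_const.add ?_))
      split_ifs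
      · exact continuousOn_const
      · exact (C.continuousOn_Ψ cont_fR i).sub (C.continuousOn_Ψ cont_fM i))
    (fun k => if k ∈ σ then 1 else 0) (hσS hi) (by simp [hi])
  obtain ⟨u, l, hl, h2⟩ := C.Ψ_spec he
  simp only [(h2 _ cont_fN).1, (h2 _ cont_fN).2, (h2 _ cont_fR).1, (h2 _ cont_fR).2,
    (h2 _ cont_fB).1, (h2 _ cont_fB).2, (h2 _ cont_fM).1, (h2 _ cont_fM).2] at hs
  have hs1 : ∀ k ∈ S, C.QΓ u σ _ hτ i l k - C.QΓ u σ _ hτ i (fun b => - l b) k =
      s * if k ∈ σ then 1 else 0 := hs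
  have hs2 : ∀ k ∈ S, C.QΓ u σ _ hτ i (fun b => - l b) k -
      C.QΓ u σ _ hτ i (fun b => - (fun b => - l b) b) k = (-s) * if k ∈ σ then 1 else 0 := by
    intro k hk
    have := hs1 k hk
    simp only [neg_neg]; linarith
  have hl2 : ∑ b, (fun b => - l b) b ^ 2 = 1 := by simpa using hl
  have nn : ∀ w : Fin d → ℝ, 0 ≤ (σ.erase i).inf' hτ (C.Γ u w) := fun w =>
    (le_inf'_iff _ _).mpr fun k _ => C.Γ_nonneg u w k
  rcases (nn fun b => fB (l b)).lt_or_eq with h1 | h1
  · exact C.caseA u hU hσS hσ hi hτ hfree hl hs1 h1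
  rcases (nn fun b => fB (- l b)).lt_or_eq with h3 | h3
  · exact C.caseA u hU hσS hσ hi hτ hfree hl2 hs2 h3
  rcases le_total 0 s with h4 | h4
  · exact C.caseB u hU hσS hσ hτ hl h4 hs1 h1.symm h3.symm
  · exact C.caseB u hU hσS hσ hτ hl2 (by linarith) hs2 h3.symm (by simpa using h1.symm)

end Col

end Crest.Agent.R050
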