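import Mathlib
import Crest.Agent.R050.PLemma

/-! The combinatorial facts satisfied by a 10-colouring of `ℝ⁴`, and the Veronese embedding. -/

set_option autoImplicit false

namespace Crest.Agent.R050

open Finset Metric
open scoped RealInnerProductSpace Pointwise

namespace Col

variable (C : Col (Ed 4) (Fin 10))

lemma uses_univ : C.Uses univ := fun _ _ _ => mem_univ _

lemma hdown (S T : Finset (Fin 10)) (h : S ⊆ T) (hT : C.Face T) : C.Face S := by
  obtain ⟨x, hx, h1⟩ := hT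
  exact ⟨x, hx, fun i hi => h1 i (h hi)⟩

lemma hpair (S : Finset (Fin 10)) (h : S.card ≤ 2) : C.Face S := by
  obtain ⟨T, hT, hc⟩ := exists_superset_card_eq (n := 2) h (by simp)
  obtain ⟨i, j, -, rfl⟩ := card_eq_two.mp hc
  exact C.hdown _ _ hT (C.face_pair C.uses_univ (by simp [Nat.choose]) (mem_univ _) (mem_univ _))

lemma exists_orth (x y z : Ed 4) : ∃ v : Ed 4, v ≠ 0 ∧ ⟪x, v⟫ = 0 ∧ ⟪y, v⟫ = 0 ∧ ⟪z, v⟫ = 0 := by
  let L : Ed 4 →ₗ[ℝ] (Fin 3 → ℝ) := LinearMap.pi fun i => (innerSL ℝ (![x, y, z] i)).toLinearMap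
  obtain ⟨v, hv, hv0⟩ := (Submodule.ne_bot_iff _).mp
    (LinearMap.ker_ne_bot_of_finrank_lt (f := L) (by simp))
  have h := LinearMap.mem_ker.mp hv
  exact ⟨v, hv0, by simpa [L] using congr_fun h 0, by simpa [L] using congr_fun h 1,
    by simpa [L] using congr_fun h 2⟩

lemma hcover (A B D : Finset (Fin 10)) (hA : C.Face A) (hB : C.Face B) (hD : C.Face D) :
    A ∪ B ∪ D ≠ univ := by
  obtain ⟨x, -, hx⟩ := hA
  obtain ⟨y, -, hy⟩ := hB
  obtain ⟨z, -, hz⟩ := hD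
  obtain ⟨v, hv, h1, h2, h3⟩ := exists_orth x y z
  obtain ⟨k, hk⟩ := C.exists_pos hv
  intro h
  have : k ∈ A ∪ B ∪ D := h ▸ mem_univ k
  simp only [mem_union] at this
  rcases this with (h | h) | h
  · exact C.orth k _ _ (hx k h) hk h1
  · exact C.orth k _ _ (hy k h) hk h2
  · exact C.orth k _ _ (hz k h) hk h3

lemma exists_plane {σ : Finset (Fin 10)} (hσ : C.Face σ) :
    ∃ C' : Col (Ed 3) (Fin 10), C'.Uses σᶜ ∧ ∀ T, C'.Face T → C.Face T := by
  obtain ⟨x, hx0, hx⟩ := hσ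
  have : Fact (Module.finrank ℝ (Ed 4) = 3 + 1) := ⟨by simp⟩
  let f : Ed 3 →ₗᵢ[ℝ] Ed 4 := (Submodule.subtypeₗᵢ _).comp
    (OrthonormalBasis.fromOrthogonalSpanSingleton 3 hx0).repr.symm.toLinearIsometry
  have hf : ∀ v, ⟪x, f v⟫ = 0 := fun v =>
    Submodule.mem_orthogonal_singleton_iff_inner_right.mp
      ((OrthonormalBasis.fromOrthogonalSpanSingleton 3 hx0).repr.symm v).2
  refine ⟨C.comap f, fun i v hv => mem_compl.mpr fun hi => C.orth i _ _ (hx i hi) hv (hf v), ?_⟩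
  rintro T ⟨v, hv, h⟩
  exact ⟨f v, fun h0 => hv (f.injective (by simpa using h0)), h⟩

lemma card_compl4 {σ : Finset (Fin 10)} (h : σ.card = 4) : σᶜ.card = 6 := by
  rw [card_compl, h]; simp

lemma hdual (σ T : Finset (Fin 10)) (hσ : C.Face σ) (h4 : σ.card = 4) (hT : T ⊆ σᶜ)
    (h3 : T.card = 3) : C.Face T ∨ C.Face (σᶜ \ T) := by
  obtain ⟨C', hU, hF⟩ := C.exists_plane hσ
  have := C'.face_dual hU (card_compl4 h4).le hT (card_pos.mp (by omega))
    (card_pos.mp (by rw [card_sdiff_of_subset hT, card_compl4 h4]; omega))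
  exact this.imp (hF _) (hF _)

lemma hn1 (σ T : Finset (Fin 10)) (k : Fin 10) (hσ : C.Face σ) (h4 : σ.card = 4) (hT : T ⊆ σᶜ)
    (h3 : T.card = 3) (hFT : C.Face T) (hk : k ∈ T) :
    ∃ l ∈ σᶜ \ T, C.Face (insert l (T.erase k)) := by
  obtain ⟨C', hU, hF⟩ := C.exists_plane hσ
  have := C'.face_dual hU (card_compl4 h4).le hT (card_pos.mp (by omega))
    (card_pos.mp (by rw [card_sdiff_of_subset hT, card_compl4 h4]; omega))
  rcases this with h | h
  · obtain ⟨l, hl, hl'⟩ := C'.no_free hU (by rw [card_compl4 h4]; simp [Nat.choose]) hT h hk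
      (card_pos.mp (by rw [card_erase_of_mem hk]; omega))
    exact ⟨l, hl, hF _ hl'⟩
  · exfalso
    refine C.hcover σ T (σᶜ \ T) hσ hFT (hF _ h) ?_
    rw [union_assoc, union_sdiff_of_subset hT, union_compl]

lemma hp3 (σ : Finset (Fin 10)) (k : Fin 10) (hσ : C.Face σ) (h4 : σ.card = 4) (hk : k ∈ σ) :
    ∃ l ∉ σ, C.Face (insert l (σ.erase k)) := by
  obtain ⟨l, hl, hl'⟩ := C.no_free C.uses_univ (by simp [Nat.choose]) (subset_univ _) hσ hk
      (card_pos.mp (by rw [card_erase_of_mem hk]; omega))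
  exact ⟨l, (mem_sdiff.mp hl).2, hl'⟩

lemma hR (part : Fin 10 → ℕ) (h : ∀ n, C.Face (univ.filter fun i => part i = n)) :
    ∃ S, C.Face S ∧ S.card = 4 ∧ Set.InjOn part S := by
  classical
  choose p hp0 hp using h
  have hp' : ∀ i, 0 < C.φ i (p (part i)) := fun i => hp _ i (by simp)
  let g : Ed 4 → Fin 10 → ℝ := fun x i => ⟪p (part i), x⟫ * C.φ i x
  obtain ⟨x, hx, h0⟩ := Lib.BorsukUlam.borsuk_ulam (E := Ed 4) (G := Fin 3 → ℝ) (by simp)
    (fun x j => ∑ i, g x i * (part i : ℝ) ^ (j : ℕ))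
    (by
      intro x; funext j
      have : ∀ i, C.φ i (-x) = C.φ i x := fun i => by simpa using C.smul i (-1) x
      simp [g, this])
    (Continuous.continuousOn (continuous_pi fun j => continuous_finsetSum _ fun i _ => by
      have := C.cont i
      simp only [g]
      fun_prop))
  set T : Finset (Fin 10) := univ.filter fun i => 0 < C.φ i x with hT
  by_cases hI : 4 ≤ (T.image part).card
  · obtain ⟨J, hJ, hJc⟩ := exists_subset_card_eq hI
    obtain ⟨S, hS, hinj, hSJ⟩ := Finset.exists_subset_injOn_image_eq_of_surjOn (f := part)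
      (T : Set (Fin 10)) J (by intro n hn; simpa using hJ hn)
    refine ⟨S, ⟨x, hx, fun i hi => by simpa [hT] using hS hi⟩, ?_, hinj⟩
    rw [← hJc, ← hSJ, card_image_of_injOn hinj]
  · exfalso
    obtain ⟨i₀, hi₀⟩ := C.exists_pos hx
    have hmem : part i₀ ∈ T.image part := mem_image_of_mem _ (by simp [hT, hi₀])
    set a := part i₀ with ha
    obtain ⟨b, c, hb, hc, hbc⟩ : ∃ b c, b ≠ a ∧ c ≠ a ∧
        ∀ n ∈ T.image part, n ≠ a → n = b ∨ n = c := by
      have hcard : ((T.image part).erase a).card ≤ 2 := by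
        rw [card_erase_of_mem hmem]; omega
      have hm : ∀ n, n ∈ (T.image part).erase a ↔ n ≠ a ∧ n ∈ T.image part := fun n => mem_erase
      generalize (T.image part).erase a = J at hcard hm
      have : J.card = 0 ∨ J.card = 1 ∨ J.card = 2 := by omega
      rcases this with h | h | h
      · rw [card_eq_zero] at h; subst h
        exact ⟨a + 1, a + 1, by omega, by omega, fun n h1 h2 => by simpa using (hm n).mpr ⟨h2, h1⟩⟩
      · obtain ⟨b, rfl⟩ := card_eq_one.mp h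
        have := ((hm b).mp (by simp)).1
        exact ⟨b, b, this, this, fun n h1 h2 => by simpa using (hm n).mpr ⟨h2, h1⟩⟩
      · obtain ⟨b, c, -, rfl⟩ := card_eq_two.mp h
        exact ⟨b, c, ((hm b).mp (by simp)).1, ((hm c).mp (by simp)).1,
          fun n h1 h2 => by simpa using (hm n).mpr ⟨h2, h1⟩⟩
    have e0 := congr_fun h0 0
    have e1 := congr_fun h0 1
    have e2 := congr_fun h0 2
    simp only [Pi.zero_apply, Fin.val_zero, Fin.val_one, Fin.val_two, pow_zero, pow_one,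
      mul_one] at e0 e1 e2
    have e3 : ∑ i, g x i * (((part i : ℝ) - b) * ((part i : ℝ) - c)) = 0 := by
      have : ∀ i, g x i * (((part i : ℝ) - b) * ((part i : ℝ) - c)) =
          g x i * (part i : ℝ) ^ 2 - (b + c) * (g x i * part i) + b * c * g x i := by
        intro i; ring
      simp only [this, sum_add_distrib, sum_sub_distrib, ← mul_sum, e0, e1, e2]; ring
    have e4 : ∑ i, g x i * (((part i : ℝ) - b) * ((part i : ℝ) - c)) =
        (⟪p a, x⟫ * (((a : ℝ) - b) * ((a : ℝ) - c))) * ∑ i, if part i = a then C.φ i x else 0 := by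
      rw [mul_sum]
      refine sum_congr rfl fun i _ => ?_
      by_cases hi : part i = a
      · simp only [g, hi, if_true]; ring
      · simp only [hi, if_false, mul_zero]
        rcases (C.nonneg i x).lt_or_eq with h | h
        · rcases hbc (part i) (mem_image_of_mem _ (by simp [hT, h])) hi with h | h <;> simp [h]
        · simp [g, ← h]
    rw [e4] at e3
    have h1 : ⟪p a, x⟫ ≠ 0 := C.orth i₀ _ _ (hp' i₀) hi₀
    have h2 : (a : ℝ) - b ≠ 0 := sub_ne_zero.mpr (by exact_mod_cast hb.symm)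
    have h3 : (a : ℝ) - c ≠ 0 := sub_ne_zero.mpr (by exact_mod_cast hc.symm)
    have h4 : 0 < ∑ i, if part i = a then C.φ i x else 0 := by
      refine sum_pos' (fun i _ => ?_) ⟨i₀, mem_univ _, by simp [ha, hi₀]⟩
      split_ifs
      · exact C.nonneg _ _
      · exact le_rfl
    exact mul_ne_zero (mul_ne_zero h1 (mul_ne_zero h2 h3)) h4.ne' e3

end Col

/-- from a set-theoretic colouring with a margin to a continuous one -/
lemma exists_Col {W : Type*} [NormedAddCommGroup W] [InnerProductSpace ℝ W] {ι : Type*}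
    (c : W → ι) (hc : ∀ (t : ℝ) x, t ≠ 0 → c (t • x) = c x) {δ : ℝ} (hδ : 0 < δ)
    (h : ∀ x y, x ≠ 0 → y ≠ 0 → c x = c y → δ * (‖x‖ * ‖y‖) ≤ |⟪x, y⟫|) : Nonempty (Col W ι) := by
  set ε : ℝ := min (1 / 2) (δ / 6) with hε
  have hε0 : 0 < ε := by positivity
  have hε1 : ε ≤ 1 / 2 := min_le_left _ _
  have hε2 : ε ≤ δ / 6 := min_le_right _ _
  let K : ι → Set W := fun i => {x | x = 0 ∨ c x = i}
  have hK0 : ∀ i, (0 : W) ∈ K i := fun i => Or.inl rfl
  have hKs : ∀ i (t : ℝ), t ≠ 0 → t • K i = K i := by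
    intro i t ht
    ext x
    rw [Set.mem_smul_set_iff_inv_smul_mem₀ ht]
    simp [K, ht, hc t⁻¹ x (inv_ne_zero ht)]
  have near : ∀ i x, 0 < max 0 (‖x‖ - infDist x (K i) / ε) →
      ∃ x', x' ≠ 0 ∧ c x' = i ∧ ‖x - x'‖ < ε * ‖x‖ ∧ ‖x‖ ≤ 2 * ‖x'‖ := by
    intro i x hx
    have h1 : infDist x (K i) < ε * ‖x‖ := by
      have := (lt_max_iff.mp hx).resolve_left (lt_irrefl _)
      rw [sub_pos, div_lt_iff₀ hε0] at this; linarith
    obtain ⟨x', hx', h2⟩ := (infDist_lt_iff ⟨0, hK0 i⟩).mp h1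
    rw [dist_eq_norm] at h2
    have h3 : ‖x‖ ≤ ‖x - x'‖ + ‖x'‖ := by simpa using norm_add_le (x - x') x'
    have h4 : ε * ‖x‖ ≤ 1 / 2 * ‖x‖ := by gcongr
    have h5 : x' ≠ 0 := by
      rintro rfl
      simp only [sub_zero] at h2
      linarith [norm_nonneg x]
    exact ⟨x', h5, hx'.resolve_left h5, h2, by linarith⟩
  refine ⟨⟨fun i x => max 0 (‖x‖ - infDist x (K i) / ε), fun i => ?_, fun i x => le_max_left _ _,
    fun i t x => ?_, fun i x => ?_, fun x => ⟨c x, ?_⟩, fun i x y hx hy hxy => ?_⟩⟩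
  · have := continuous_infDist_pt (K i)
    fun_prop
  · by_cases ht : t = 0
    · simp [ht, infDist_zero_of_mem (hK0 i)]
    · have := infDist_smul₀ ht (K i) x
      rw [hKs i t ht] at this
      rw [this, norm_smul, Real.norm_eq_abs, mul_max_of_nonneg _ _ (abs_nonneg t), mul_zero]
      congr 1; ring
  · refine max_le (norm_nonneg _) ?_
    have := div_nonneg (infDist_nonneg (x := x) (s := K i)) hε0.le
    linarith
  · have : x ∈ K (c x) := Or.inr rfl
    simp [infDist_zero_of_mem this]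
  · obtain ⟨x', hx0, hx1, hx2, hx3⟩ := near i x hx
    obtain ⟨y', hy0, hy1, hy2, hy3⟩ := near i y hy
    have h1 := h x' y' hx0 hy0 (hx1.trans hy1.symm)
    have h2 : ⟪x', y'⟫ = -⟪x - x', y'⟫ - ⟪x, y - y'⟫ := by
      simp only [inner_sub_left, inner_sub_right, hxy]; ring
    have h3 := abs_real_inner_le_norm (x - x') y'
    have h4 := abs_real_inner_le_norm x (y - y')
    have h5 : |⟪x', y'⟫| ≤ |⟪x - x', y'⟫| + |⟪x, y - y'⟫| := by
      rw [h2]; exact (abs_sub _ _).trans (by rw [abs_neg])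
    have px : 0 < ‖x'‖ := norm_pos_iff.mpr hx0
    have py : 0 < ‖y'‖ := norm_pos_iff.mpr hy0
    have h6 : ‖x - x'‖ * ‖y'‖ < ε * (2 * ‖x'‖) * ‖y'‖ := by
      refine mul_lt_mul_of_pos_right (hx2.trans_le ?_) py
      gcongr
    have h7 : ‖x‖ * ‖y - y'‖ ≤ (2 * ‖x'‖) * (ε * (2 * ‖y'‖)) := by
      have : ‖y - y'‖ ≤ ε * (2 * ‖y'‖) := hy2.le.trans (by gcongr)
      gcongr
    have h8 : 6 * ε * (‖x'‖ * ‖y'‖) ≤ δ * (‖x'‖ * ‖y'‖) := by
      gcongr; linarith
    nlinarith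

/-- the Veronese map into `ℝ⁹` -/
noncomputable def ver (x : Ed 4) : Ed 9 :=
  !₂[x 0 * x 1 + x 2 * x 3, x 0 * x 1 - x 2 * x 3, x 0 * x 2 + x 1 * x 3, x 0 * x 2 - x 1 * x 3,
    x 0 * x 3 + x 1 * x 2, x 0 * x 3 - x 1 * x 2,
    (x 0 ^ 2 + x 1 ^ 2 - x 2 ^ 2 - x 3 ^ 2) / 2, (x 0 ^ 2 - x 1 ^ 2 + x 2 ^ 2 - x 3 ^ 2) / 2,
    (x 0 ^ 2 - x 1 ^ 2 - x 2 ^ 2 + x 3 ^ 2) / 2]

lemma ver_neg (x : Ed 4) : ver (-x) = ver x := by
  simp [ver]

lemma dist_ver {x y : Ed 4} (hx : ‖x‖ = 1) (hy : ‖y‖ = 1) :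
    dist (ver x) (ver y) ^ 2 = 2 - 2 * ⟪x, y⟫ ^ 2 := by
  have h1 : x 0 ^ 2 + x 1 ^ 2 + x 2 ^ 2 + x 3 ^ 2 = 1 := by
    have := EuclideanSpace.real_norm_sq_eq x
    rw [hx, Fin.sum_univ_four] at this; linarith
  have h2 : y 0 ^ 2 + y 1 ^ 2 + y 2 ^ 2 + y 3 ^ 2 = 1 := by
    have := EuclideanSpace.real_norm_sq_eq y
    rw [hy, Fin.sum_univ_four] at this; linarith
  have h3 : ⟪x, y⟫ = x 0 * y 0 + x 1 * y 1 + x 2 * y 2 + x 3 * y 3 := by
    simp [PiLp.inner_apply, Fin.sum_univ_four]; ring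
  rw [EuclideanSpace.dist_sq_eq, h3]
  simp only [ver, Fin.sum_univ_succ, Real.dist_eq, sq_abs, Matrix.cons_val_zero,
    Matrix.cons_val_succ, Fin.sum_univ_zero]
  linear_combination (3 / 4 * (x 0 ^ 2 + x 1 ^ 2 + x 2 ^ 2 + x 3 ^ 2 + 1) + 1 / 2 *
    (y 0 ^ 2 + y 1 ^ 2 + y 2 ^ 2 + y 3 ^ 2)) * h1 +
    (3 / 4 * (y 0 ^ 2 + y 1 ^ 2 + y 2 ^ 2 + y 3 ^ 2 + 1) + 1 / 2) * h2

theorem borsuk_of_no_Col (hno : IsEmpty (Col (Ed 4) (Fin 10))) :
    ∃ S : Set (EuclideanSpace ℝ (Fin 9)), Bornology.IsBounded S ∧ S.Nontrivial ∧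
      ∀ c : EuclideanSpace ℝ (Fin 9) → Fin 10, ∃ i : Fin 10,
        Metric.diam S ≤ Metric.diam (S ∩ c ⁻¹' {i}) := by
  set S : Set (Ed 9) := ver '' sphere 0 1 with hS
  have hd : ∀ p ∈ S, ∀ q ∈ S, dist p q ≤ √2 := by
    rintro _ ⟨x, hx, rfl⟩ _ ⟨y, hy, rfl⟩
    refine Real.le_sqrt_of_sq_le ?_
    rw [dist_ver (by simpa using hx) (by simpa using hy)]
    nlinarith [sq_nonneg ⟪x, y⟫]
  have hb : Bornology.IsBounded S := isBounded_iff.mpr ⟨_, fun p hp q hq => hd p hp q hq⟩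
  refine ⟨S, hb, ?_, fun c => ?_⟩
  · refine ⟨ver (EuclideanSpace.single 0 1), ⟨_, by simp, rfl⟩, ver (EuclideanSpace.single 1 1),
      ⟨_, by simp, rfl⟩, fun h => ?_⟩
    have := dist_ver (x := EuclideanSpace.single 0 1) (y := EuclideanSpace.single 1 1)
      (by simp) (by simp)
    rw [h] at this
    simp [EuclideanSpace.inner_single_left] at this
  · by_contra hcon
    push Not at hcon
    obtain ⟨i₀, hi₀⟩ := Finite.exists_max fun i => diam (S ∩ c ⁻¹' {i})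
    set D := diam (S ∩ c ⁻¹' {i₀}) with hD
    have hD0 : 0 ≤ D := diam_nonneg
    have hD2 : D < √2 := (hcon i₀).trans_le (diam_le_of_forall_dist_le (by positivity) hd)
    have hD3 : D ^ 2 < 2 := by
      have := Real.sq_sqrt (show (0 : ℝ) ≤ 2 by norm_num)
      nlinarith
    refine hno.false (exists_Col (fun x => c (ver (‖x‖⁻¹ • x))) (fun t x ht => ?_)
      (δ := √(1 - D ^ 2 / 2)) (Real.sqrt_pos.mpr (by linarith)) fun x y hx hy hxy => ?_).some
    · rcases lt_or_gt_of_ne ht with h | h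
      · have : ‖t • x‖⁻¹ • t • x = -(‖x‖⁻¹ • x) := by
          rw [norm_smul, Real.norm_eq_abs, abs_of_neg h, smul_smul, ← neg_smul]
          congr 1; field_simp
        simp only [this, ver_neg]
      · have : ‖t • x‖⁻¹ • t • x = ‖x‖⁻¹ • x := by
          rw [norm_smul, Real.norm_eq_abs, abs_of_pos h, smul_smul]
          congr 1; field_simp
        simp only [this]
    · have px : 0 < ‖x‖ := norm_pos_iff.mpr hx
      have py : 0 < ‖y‖ := norm_pos_iff.mpr hy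
      have ux : ‖‖x‖⁻¹ • x‖ = 1 := by rw [norm_smul, norm_inv, norm_norm]; field_simp
      have uy : ‖‖y‖⁻¹ • y‖ = 1 := by rw [norm_smul, norm_inv, norm_norm]; field_simp
      have h1 : dist (ver (‖x‖⁻¹ • x)) (ver (‖y‖⁻¹ • y)) ≤ D :=
        (dist_le_diam_of_mem (s := S ∩ c ⁻¹' {c (ver (‖y‖⁻¹ • y))}) (hb.subset Set.inter_subset_left)
          ⟨⟨_, by simpa using ux, rfl⟩, hxy⟩ ⟨⟨_, by simpa using uy, rfl⟩, rfl⟩).trans (hi₀ _)
      have h2 := dist_ver ux uy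
      have h3 : dist (ver (‖x‖⁻¹ • x)) (ver (‖y‖⁻¹ • y)) ^ 2 ≤ D ^ 2 := by gcongr
      have h4 : √(1 - D ^ 2 / 2) ≤ |⟪‖x‖⁻¹ • x, ‖y‖⁻¹ • y⟫| := by
        rw [← Real.sqrt_sq_eq_abs]
        exact Real.sqrt_le_sqrt (by linarith)
      rw [real_inner_smul_left, real_inner_smul_right, abs_mul, abs_mul, abs_of_pos (inv_pos.mpr px),
        abs_of_pos (inv_pos.mpr py)] at h4
      calc √(1 - D ^ 2 / 2) * (‖x‖ * ‖y‖) ≤ ‖x‖⁻¹ * (‖y‖⁻¹ * |⟪x, y⟫|) * (‖x‖ * ‖y‖) := by gcongr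
        _ = |⟪x, y⟫| := by field_simp

end Crest.Agent.R050
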